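import Vale.Agent.P027.H434.Thick

set_option linter.all false

/-! The natural numbers above a bound, and the rational numbers of an interval, contain codes of
all finite sets. -/

namespace Vale.Agent.P027.H434

open Vale.Agent.P027 Vale.Agent.P027.K2

/-- the value of `x ^ 2 - 8` has no inert prime factor -/
theorem val_sq_sub {p x : ℕ} (hp : Inert p) (hx : 3 ≤ x) :
    padicValRat p (((x ^ 2 - 8 : ℕ)) : ℚ) = 0 := by
  refine vnat_zero ?_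
  intro hd
  have := Fact.mk hp.1
  have h8 : 8 ≤ x ^ 2 := by nlinarith
  have hp2 := hp.ne_two
  have h1 : ((x ^ 2 - 8 : ℕ) : ZMod p) = 0 := (ZMod.natCast_eq_zero_iff _ _).2 hd
  rw [Nat.cast_sub h8] at h1
  push_cast at h1
  have h2 : (2 : ZMod p) ≠ 0 := by
    intro h
    have h3 : ((2 : ℕ) : ZMod p) = 0 := by exact_mod_cast h
    rw [ZMod.natCast_eq_zero_iff] at h3
    exact hp2 ((Nat.prime_dvd_prime_iff_eq hp.1 Nat.prime_two).1 h3)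
  have h3 : IsSquare (2 : ZMod p) := by
    refine ⟨(x : ZMod p) / 2, ?_⟩
    field_simp
    linear_combination (-1 : ZMod p) * h1
  rcases (ZMod.exists_sq_eq_two_iff hp2).1 h3 with h | h <;> rcases hp.2 with h' | h' <;> omega

/-- multiplying a code by a fraction -/
theorem code_mul {S : Finset ℕ} {t : ℤ} (ht : Three8 (t : ℚ))
    (hv : ∀ p, Inert p → padicValRat p (t : ℚ) = if p ∈ S then 1 else 0)
    {s x y : ℕ} (hx : 3 ≤ x) (hy : 3 ≤ y) (hxo : x % 2 = 1) (hyo : y % 2 = 1) :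
    Three8 ((t : ℚ) * (-7) ^ s * ((x ^ 2 - 8 : ℕ) / (y ^ 2 - 8 : ℕ))) ∧
      ∀ p, Inert p → padicValRat p ((t : ℚ) * (-7) ^ s * ((x ^ 2 - 8 : ℕ) / (y ^ 2 - 8 : ℕ))) =
        if p ∈ S then 1 else 0 := by
  have ht0 : (t : ℚ) ≠ 0 := ht.val.1
  have hx8 : 1 ≤ x ^ 2 - 8 := by have : 9 ≤ x ^ 2 := by nlinarith
                                 omega
  have hy8 : 1 ≤ y ^ 2 - 8 := by have : 9 ≤ y ^ 2 := by nlinarith
                                 omega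
  have hX0 : ((x ^ 2 - 8 : ℕ) : ℚ) ≠ 0 := by exact_mod_cast (by omega : x ^ 2 - 8 ≠ 0)
  have hY0 : ((y ^ 2 - 8 : ℕ) : ℚ) ≠ 0 := by exact_mod_cast (by omega : y ^ 2 - 8 ≠ 0)
  have h7 : ((-7 : ℚ)) ^ s ≠ 0 := pow_ne_zero _ (by norm_num)
  constructor
  · -- congruence modulo eight
    have ht8 : t % 8 = 3 := by
      have h1 := ht
      unfold Three8 at h1
      have h2 : ((t : ℚ) - 3) / 8 = (((t - 3 : ℤ)) : ℚ) / ((8 : ℕ) : ℚ) := by push_cast; ring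
      rcases eq_or_ne t 3 with h3 | h3
      · rw [h3]; norm_num
      have h4 : ((t - 3 : ℤ) : ℚ) ≠ 0 := by
        exact_mod_cast sub_ne_zero.2 h3
      rw [h2, padicValRat.div h4 (by norm_num)] at h1
      have h5 : padicValRat 2 ((8 : ℕ) : ℚ) = 3 := by exact_mod_cast v28
      rw [h5, padicValRat.of_int] at h1
      have h6 : 3 ≤ padicValInt 2 (t - 3) := by omega
      have h7 : ((2 : ℕ) : ℤ) ^ 3 ∣ t - 3 := (padicValInt_dvd_iff 3 (t - 3)).2 (Or.inr h6)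
      have h8 : (8 : ℤ) ∣ t - 3 := by norm_num at h7; exact h7
      omega
    have hxm : (x ^ 2 - 8) % 8 = 1 := by
      obtain ⟨k, rfl⟩ : ∃ k, x = 2 * k + 1 := ⟨x / 2, by omega⟩
      obtain ⟨c, hc⟩ : ∃ c, k * (k + 1) = 2 * c := by
        obtain ⟨c, hc⟩ := Nat.even_mul_succ_self k
        exact ⟨c, by omega⟩
      have : (2 * k + 1) ^ 2 = 8 * c + 1 := by nlinarith
      omega
    have hym : (y ^ 2 - 8) % 8 = 1 := by
      obtain ⟨k, rfl⟩ : ∃ k, y = 2 * k + 1 := ⟨y / 2, by omega⟩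
      obtain ⟨c, hc⟩ : ∃ c, k * (k + 1) = 2 * c := by
        obtain ⟨c, hc⟩ := Nat.even_mul_succ_self k
        exact ⟨c, by omega⟩
      have : (2 * k + 1) ^ 2 = 8 * c + 1 := by nlinarith
      omega
    have h7m : ((-7 : ℤ)) ^ s ≡ 1 [ZMOD 8] := by
      have : (-7 : ℤ) ≡ 1 [ZMOD 8] := by decide
      simpa using this.pow s
    set X := x ^ 2 - 8 with hX
    set Y := y ^ 2 - 8 with hY
    have hm : t * (-7) ^ s * (X : ℤ) - 3 * (Y : ℤ) ≡ 0 [ZMOD 8] := by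
      have a1 : t ≡ 3 [ZMOD 8] := by unfold Int.ModEq; omega
      have a2 : (X : ℤ) ≡ 1 [ZMOD 8] := by unfold Int.ModEq; omega
      have a3 : (Y : ℤ) ≡ 1 [ZMOD 8] := by unfold Int.ModEq; omega
      have := ((a1.mul h7m).mul a2).sub ((Int.ModEq.refl 3).mul a3)
      simpa using this
    obtain ⟨k, hk⟩ := (Int.modEq_zero_iff_dvd.1 hm)
    unfold Three8
    have e : ((t : ℚ) * (-7) ^ s * ((X : ℚ) / (Y : ℚ)) - 3) / 8 = (k : ℚ) / ((Y : ℕ) : ℚ) := by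
      have hk' : (t : ℚ) * (-7) ^ s * (X : ℚ) - 3 * (Y : ℚ) = 8 * k := by exact_mod_cast hk
      field_simp
      linear_combination hk'
    rw [e]
    rcases eq_or_ne k 0 with h0 | h0
    · rw [h0]; simp
    rw [padicValRat.div (by exact_mod_cast h0) hY0, vnat_zero (p := 2) (n := Y) (by omega), sub_zero,
      padicValRat.of_int]
    exact Int.natCast_nonneg _
  · intro p hp
    have := Fact.mk hp.1
    have h1 : padicValRat p ((-7 : ℚ) ^ s) = 0 := by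
      rw [padicValRat.pow]
      have h2 : padicValRat p (-7 : ℚ) = 0 := by
        rw [padicValRat.neg]
        have h3 : padicValRat p ((7 : ℕ) : ℚ) = 0 := by
          refine vprime hp.1 (by norm_num) ?_
          rintro rfl
          rcases hp.2 with h | h <;> norm_num at h
        exact_mod_cast h3
      rw [h2, mul_zero]
    rw [padicValRat.mul (mul_ne_zero ht0 h7) (div_ne_zero hX0 hY0), padicValRat.mul ht0 h7, h1,
      padicValRat.div hX0 hY0, val_sq_sub hp hx, val_sq_sub hp hy, hv p hp]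
    simp

theorem ratio_dense {α β : ℚ} (h0 : 0 < β) (h : α < β) : ∃ x y : ℕ, 3 ≤ x ∧ 3 ≤ y ∧ x % 2 = 1 ∧
    y % 2 = 1 ∧ α < ((x ^ 2 - 8 : ℕ) : ℚ) / (y ^ 2 - 8 : ℕ) ∧
      ((x ^ 2 - 8 : ℕ) : ℚ) / (y ^ 2 - 8 : ℕ) < β := by
  obtain ⟨w, hw0, hw1, hw2⟩ := exists_rat_pow_btwn (n := 2) (by norm_num) h h0
  have hw1' : α < w ^ 2 := by exact_mod_cast hw1
  have hw2' : w ^ 2 < β := by exact_mod_cast hw2
  have hp : 0 < w.num := Rat.num_pos.2 hw0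
  obtain ⟨p, hp'⟩ := Int.eq_ofNat_of_zero_le hp.le
  have hp0 : 0 < p := by
    have : (0 : ℤ) < (p : ℤ) := by
      have h := hp
      rw [hp'] at h
      exact_mod_cast h
    exact_mod_cast this
  have hq0 : 0 < w.den := w.den_pos
  have hwe : w = (p : ℚ) / w.den := by
    conv_lhs => rw [← Rat.num_div_den w]
    rw [hp']
    simp
  set q := w.den with hq
  have hcont : ContinuousAt (fun h : ℝ => (((2 * p + h) ^ 2 - 8 * h ^ 2) /
      ((2 * q + h) ^ 2 - 8 * h ^ 2) : ℝ)) 0 := by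
    refine ContinuousAt.div (by fun_prop) (by fun_prop) ?_
    have : (0 : ℝ) < q := by exact_mod_cast hq0
    change ((2 * (q : ℝ) + 0) ^ 2 - 8 * 0 ^ 2) ≠ 0
    have e : ((2 * (q : ℝ) + 0) ^ 2 - 8 * 0 ^ 2) = 4 * (q : ℝ) ^ 2 := by ring
    rw [e]
    positivity
  have hlim : Filter.Tendsto (fun n : ℕ => (((2 * p + 1 / ((n : ℝ) + 1)) ^ 2 -
      8 * (1 / ((n : ℝ) + 1)) ^ 2) / ((2 * q + 1 / ((n : ℝ) + 1)) ^ 2 -
      8 * (1 / ((n : ℝ) + 1)) ^ 2) : ℝ)) Filter.atTop (nhds ((w : ℝ) ^ 2)) := by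
    have h1 := hcont.tendsto.comp tendsto_one_div_add_atTop_nhds_zero_nat
    have h2 : ((2 * (p : ℝ) + 0) ^ 2 - 8 * 0 ^ 2) / ((2 * (q : ℝ) + 0) ^ 2 - 8 * 0 ^ 2) =
        (w : ℝ) ^ 2 := by
      rw [hwe]
      push_cast
      have : (0 : ℝ) < q := by exact_mod_cast hq0
      field_simp
      ring
    rw [h2] at h1
    exact h1
  have hα : ((α : ℚ) : ℝ) < (w : ℝ) ^ 2 := by exact_mod_cast hw1'
  have hβ : (w : ℝ) ^ 2 < ((β : ℚ) : ℝ) := by exact_mod_cast hw2'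
  obtain ⟨n, hn1, hn2, hn3⟩ := ((hlim.eventually (lt_mem_nhds hα)).and
    ((hlim.eventually (gt_mem_nhds hβ)).and (Filter.eventually_ge_atTop 1))).exists
  have key : (((2 * p + 1 / ((n : ℝ) + 1)) ^ 2 - 8 * (1 / ((n : ℝ) + 1)) ^ 2) /
      ((2 * q + 1 / ((n : ℝ) + 1)) ^ 2 - 8 * (1 / ((n : ℝ) + 1)) ^ 2) : ℝ) =
      ((((2 * p * (n + 1) + 1) ^ 2 - 8 : ℕ) : ℚ) / ((2 * q * (n + 1) + 1) ^ 2 - 8 : ℕ) : ℚ) := by
    have hx : 8 ≤ (2 * p * (n + 1) + 1) ^ 2 := by nlinarith [Nat.mul_pos hp0 (Nat.succ_pos n)]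
    have hy : 8 ≤ (2 * q * (n + 1) + 1) ^ 2 := by nlinarith [Nat.mul_pos hq0 (Nat.succ_pos n)]
    push_cast [Nat.cast_sub hx, Nat.cast_sub hy]
    have hn : (0 : ℝ) < (n : ℝ) + 1 := by positivity
    have e1 : (2 * (p : ℝ) + 1 / ((n : ℝ) + 1)) ^ 2 - 8 * (1 / ((n : ℝ) + 1)) ^ 2 =
        ((2 * p * (n + 1) + 1) ^ 2 - 8) / ((n : ℝ) + 1) ^ 2 := by
      field_simp
    have e2 : (2 * (q : ℝ) + 1 / ((n : ℝ) + 1)) ^ 2 - 8 * (1 / ((n : ℝ) + 1)) ^ 2 =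
        ((2 * q * (n + 1) + 1) ^ 2 - 8) / ((n : ℝ) + 1) ^ 2 := by
      field_simp
    rw [e1, e2, div_div_div_cancel_right₀ (by positivity)]
  rw [key] at hn1 hn2
  refine ⟨2 * p * (n + 1) + 1, 2 * q * (n + 1) + 1, ?_, ?_, ?_, ?_, by exact_mod_cast hn1,
    by exact_mod_cast hn2⟩
  · nlinarith [Nat.mul_pos hp0 (Nat.succ_pos n)]
  · nlinarith [Nat.mul_pos hq0 (Nat.succ_pos n)]
  · have : 2 * p * (n + 1) = 2 * (p * (n + 1)) := by ring
    omega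
  · have : 2 * q * (n + 1) = 2 * (q * (n + 1)) := by ring
    omega

theorem thick_interval {c d : ℚ} (h : c < d) : Thick (fun t => c < t ∧ t < d) := by
  intro S hS hodd
  obtain ⟨t, -, h8, hv⟩ := exists_code17 S hS hodd 0
  have ht0 : (t : ℚ) ≠ 0 := h8.val.1
  -- a subinterval on one side of zero
  obtain ⟨c', d', h1, h2, h3, h4⟩ : ∃ c' d' : ℚ, c ≤ c' ∧ d' ≤ d ∧ c' < d' ∧ (0 ≤ c' ∨ d' ≤ 0) := by
    rcases le_or_gt 0 c with hc | hc
    · exact ⟨c, d, le_rfl, le_rfl, h, Or.inl hc⟩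
    · rcases le_or_gt d 0 with hd | hd
      · exact ⟨c, d, le_rfl, le_rfl, h, Or.inr hd⟩
      · exact ⟨0, d, hc.le, le_rfl, hd, Or.inl le_rfl⟩
  -- the sign
  obtain ⟨s, hs⟩ : ∃ s : ℕ, (0 ≤ c' ∧ 0 < (t : ℚ) * (-7) ^ s) ∨ (d' ≤ 0 ∧ (t : ℚ) * (-7) ^ s < 0) := by
    rcases h4 with h4 | h4 <;> rcases lt_or_gt_of_ne ht0 with h5 | h5
    · exact ⟨1, Or.inl ⟨h4, by nlinarith⟩⟩
    · exact ⟨0, Or.inl ⟨h4, by simpa using h5⟩⟩
    · exact ⟨0, Or.inr ⟨h4, by simpa using h5⟩⟩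
    · exact ⟨1, Or.inr ⟨h4, by nlinarith⟩⟩
  set u : ℚ := (t : ℚ) * (-7) ^ s with hu
  rcases hs with ⟨h5, h6⟩ | ⟨h5, h6⟩
  · obtain ⟨x, y, hx, hy, hxo, hyo, hl, hr⟩ := ratio_dense (α := c' / u) (β := d' / u)
      (div_pos (by linarith) h6) (div_lt_div_of_pos_right h3 h6)
    rw [div_lt_iff₀ h6] at hl
    rw [lt_div_iff₀ h6] at hr
    obtain ⟨k1, k2⟩ := code_mul h8 hv (s := s) hx hy hxo hyo
    rw [← hu] at k1 k2
    refine ⟨_, ⟨?_, ?_⟩, k1, k2⟩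
    · linarith [mul_comm u (((x ^ 2 - 8 : ℕ) : ℚ) / (y ^ 2 - 8 : ℕ))]
    · linarith [mul_comm u (((x ^ 2 - 8 : ℕ) : ℚ) / (y ^ 2 - 8 : ℕ))]
  · obtain ⟨x, y, hx, hy, hxo, hyo, hl, hr⟩ := ratio_dense (α := d' / u) (β := c' / u)
      (div_pos_of_neg_of_neg (by linarith) h6) (div_lt_div_of_neg_of_lt h6 h3)
    rw [div_lt_iff_of_neg h6] at hl
    rw [lt_div_iff_of_neg h6] at hr
    obtain ⟨k1, k2⟩ := code_mul h8 hv (s := s) hx hy hxo hyo
    rw [← hu] at k1 k2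
    refine ⟨_, ⟨?_, ?_⟩, k1, k2⟩
    · linarith [mul_comm u (((x ^ 2 - 8 : ℕ) : ℚ) / (y ^ 2 - 8 : ℕ))]
    · linarith [mul_comm u (((x ^ 2 - 8 : ℕ) : ℚ) / (y ^ 2 - 8 : ℕ))]

theorem thick_nat (N : ℕ) : Thick (fun t => ∃ n : ℕ, N ≤ n ∧ t = n) := by
  intro S hS hodd
  obtain ⟨t, hl, h8, hv⟩ := exists_code17 S hS hodd N
  have ht0 : (t : ℚ) ≠ 0 := h8.val.1
  have hN : N < 17 ^ N := Nat.lt_pow_self (by norm_num)
  rcases le_or_gt 0 t with h | h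
  · obtain ⟨n, rfl⟩ := Int.eq_ofNat_of_zero_le h
    refine ⟨((n : ℕ) : ℚ), ⟨n, ?_, rfl⟩, by simpa using h8, fun p hp => ?_⟩
    swap
    · have h1 := hv p hp
      rw [← h1]
      congr 1
    simp only [Int.ofNat_eq_natCast, Int.natAbs_natCast] at hl
    omega
  · obtain ⟨k1, k2⟩ := code_mul h8 hv (s := 1) (x := 3) (y := 3) (by norm_num) (by norm_num)
      (by norm_num) (by norm_num)
    have e : (t : ℚ) * (-7) ^ 1 * (((3 ^ 2 - 8 : ℕ) : ℚ) / (3 ^ 2 - 8 : ℕ)) =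
        (((-7 * t).toNat : ℕ) : ℚ) := by
      have h1 : (((-7 * t).toNat : ℕ) : ℤ) = -7 * t := Int.toNat_of_nonneg (by linarith)
      have h2 : (((-7 * t).toNat : ℕ) : ℚ) = -7 * (t : ℚ) := by exact_mod_cast h1
      rw [h2]
      norm_num
      ring
    rw [e] at k1 k2
    exact ⟨_, ⟨(-7 * t).toNat, by omega, rfl⟩, k1, k2⟩

end Vale.Agent.P027.H434
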