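import Vale.Agent.P027.H434.Transfer

set_option linter.all false

/-! One universal quantifier over the rationals: exceptional values are dense, witnesses are
integral, and one set is defined in all subrings. -/

namespace Vale.Agent.P027.H434

open Vale.Agent.P027 Vale.Agent.P027.K2 MvPolynomial

theorem dense_one {k : ℕ} {S : Set (Fin k → ℤ)} (hS : REPred (fun a => a ∈ S)) :
    ∃ (m : ℕ) (F : MvPolynomial (Fin k ⊕ Fin (m + 1)) ℤ), ∀ (α : Fin k → ℚ) (a : Fin k → ℤ),
      (∀ i, α i ≠ 0 ∧ padicValRat 3 (α i) = a i) →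
      (a ∈ S → ∀ P : ℚ → Prop, Thick P → ∃ t : ℚ, P t ∧
        ∀ y : Fin m → ℚ, aeval (Sum.elim α (Matrix.vecCons t y)) F ≠ 0) ∧
      (a ∉ S → ∀ t : ℚ, ∃ y : Fin m → ℤ,
        aeval (Sum.elim α (Matrix.vecCons t (fun i => (y i : ℚ)))) F = 0) := by
  obtain ⟨W, hW, h⟩ := main_int' hS
  obtain ⟨m, F, hF⟩ := Dio.fin hW k
  obtain ⟨G, hG⟩ := int_witness' F
  refine ⟨m + 4, G, fun α a ha => ?_⟩
  have hv : ∀ i : Fin k, (fun i : ℕ => if h : i < k then α ⟨i, h⟩ else 1) (i : ℕ) ≠ 0 ∧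
      padicValRat 3 ((fun i : ℕ => if h : i < k then α ⟨i, h⟩ else 1) (i : ℕ)) = a i := by
    intro i
    simpa using ha i
  have h' := fun t => h t (fun i => if h : i < k then α ⟨i, h⟩ else 1) a hv
  refine ⟨fun ha P hP => ?_, fun ha t => ?_⟩
  · obtain ⟨t, hPt, ht⟩ := (h' 0).2 ha P hP
    exact ⟨t, hPt, fun y hy => ht ((hF _ _).2 ((hG α t).2 ⟨y, hy⟩))⟩
  · have h1 : ¬ ¬ W (cns t (fun i => if h : i < k then α ⟨i, h⟩ else 1)) :=
      fun hw => ha ((h' t).1 hw)
    exact (hG α t).1 ((hF _ _).1 (not_not.1 h1))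

/-- the exceptional values are dense and unbounded -/
theorem dense_form {k : ℕ} {S : Set (Fin k → ℤ)} (hS : REPred (fun a => a ∈ S)) :
    ∃ (m : ℕ) (F : MvPolynomial (Fin k ⊕ Fin (m + 1)) ℤ), ∀ (α : Fin k → ℚ) (a : Fin k → ℤ),
      (∀ i, α i ≠ 0 ∧ padicValRat 3 (α i) = a i) →
      (a ∈ S → (∀ c d : ℚ, c < d → ∃ t : ℚ, c < t ∧ t < d ∧ ∀ y : Fin m → ℚ,
          aeval (Sum.elim α (Matrix.vecCons t y)) F ≠ 0) ∧
        ∀ N : ℕ, ∃ t : ℕ, N ≤ t ∧ ∀ y : Fin m → ℚ,
          aeval (Sum.elim α (Matrix.vecCons (t : ℚ) y)) F ≠ 0) ∧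
      (a ∉ S → ∀ t : ℚ, ∃ y : Fin m → ℤ,
        aeval (Sum.elim α (Matrix.vecCons t (fun i => (y i : ℚ)))) F = 0) := by
  obtain ⟨m, F, hF⟩ := dense_one hS
  refine ⟨m, F, fun α a ha => ⟨fun haS => ⟨fun c d hcd => ?_, fun N => ?_⟩, (hF α a ha).2⟩⟩
  · obtain ⟨t, ⟨h1, h2⟩, h3⟩ := (hF α a ha).1 haS _ (thick_interval hcd)
    exact ⟨t, h1, h2, h3⟩
  · obtain ⟨t, ⟨n, h1, rfl⟩, h3⟩ := (hF α a ha).1 haS _ (thick_nat N)
    exact ⟨n, h1, h3⟩

/-- a universal recursively enumerable set -/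
theorem universal : ∃ p : ℕ → Prop, REPred p ∧ ∀ q : ℕ → Prop, REPred q →
    ∃ g : ℕ → ℕ, Computable g ∧ ∀ n, (q n ↔ p (g n)) := by
  refine ⟨fun k => (Nat.Partrec.Code.eval (Denumerable.ofNat Nat.Partrec.Code k) 0).Dom, ?_, ?_⟩
  · have h1 : REPred fun c : Nat.Partrec.Code => (Nat.Partrec.Code.eval c 0).Dom :=
      ComputablePred.halting_problem_re 0
    exact N1.comp_re h1 (Computable.ofNat Nat.Partrec.Code)
  · intro q hq
    have h1 : Partrec (fun k : ℕ => Part.assert (q k.unpair.1) fun _ => Part.some ()) :=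
      Partrec.comp hq (Computable.fst.comp Computable.unpair)
    have h2 : Partrec (fun k : ℕ => (Part.assert (q k.unpair.1) fun _ => Part.some ()).map
        (fun _ => (0 : ℕ))) := h1.map (Computable.const 0).to₂
    obtain ⟨c, hc⟩ := Nat.Partrec.Code.exists_code.1 (Partrec.nat_iff.1 h2)
    refine ⟨fun n => Encodable.encode (Nat.Partrec.Code.curry c n), ?_, fun n => ?_⟩
    · exact Computable.encode.comp
        ((Primrec₂.to_comp Nat.Partrec.Code.primrec₂_curry).comp (Computable.const c) Computable.id)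
    · have h3 : (Nat.Partrec.Code.eval (Denumerable.ofNat Nat.Partrec.Code
          (Encodable.encode (Nat.Partrec.Code.curry c n))) 0).Dom ↔ q n := by
        rw [Denumerable.ofNat_encode, Nat.Partrec.Code.eval_curry, hc]
        simp [Part.assert]
      exact h3.symm

theorem comp_val3 : Computable (fun a : ℕ => padicValNat 3 (a + 1)) := by
  have h1 : PrimrecRel (fun a k : ℕ => (a + 1) % 3 ^ k = 0) := by
    have hp : Primrec₂ (fun a b : ℕ => a ^ b) := Primrec₂.unpaired'.1 Nat.Primrec.pow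
    exact Primrec.eq.comp (Primrec.nat_mod.comp (Primrec.succ.comp Primrec.fst)
      (hp.comp (Primrec.const 3) Primrec.snd)) (Primrec.const 0)
  have h2 : Primrec (fun a : ℕ => (a + 1).findGreatest (fun k => (a + 1) % 3 ^ k = 0)) :=
    Primrec.nat_findGreatest (p := fun a k : ℕ => (a + 1) % 3 ^ k = 0) Primrec.succ h1
  refine (h2.of_eq (fun a => ?_)).to_comp
  have h3 : ∀ k, (a + 1) % 3 ^ k = 0 ↔ k ≤ padicValNat 3 (a + 1) := by
    intro k
    rw [← Nat.dvd_iff_mod_eq_zero, padicValNat_dvd_iff_le (p := 3) (by omega)]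
  have h4 : padicValNat 3 (a + 1) ≤ a + 1 := by
    have h5 : 3 ^ padicValNat 3 (a + 1) ∣ a + 1 := pow_padicValNat_dvd
    have h6 := Nat.le_of_dvd (by omega) h5
    have h7 : padicValNat 3 (a + 1) < 3 ^ padicValNat 3 (a + 1) := Nat.lt_pow_self (by norm_num)
    omega
  rw [Nat.findGreatest_eq_iff]
  refine ⟨h4, fun _ => (h3 _).2 le_rfl, fun n hn _ hc => ?_⟩
  have := (h3 n).1 hc
  omega

theorem one_set : ∃ (m : ℕ) (F : MvPolynomial (Fin (m + 2)) ℤ) (A : Set ℕ),
    REPred (fun a => a ∉ A) ∧ ¬ REPred (fun a => a ∈ A) ∧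
    (∀ B : Set ℕ, REPred (fun n => n ∉ B) →
      ∃ f : ℕ → ℕ, Computable f ∧ ∀ n, (n ∈ B ↔ f n ∈ A)) ∧
    ∀ (R : Subring ℚ) (D : Set ℚ), ((∃ c d : ℚ, c < d ∧ ∀ t : ℚ, c < t → t < d → t ∈ D) ∨
        ∃ N : ℕ, ∀ n : ℕ, N ≤ n → (n : ℚ) ∈ D) → ∀ a : ℕ,
      (a ∈ A ↔ ∀ t ∈ D, ∃ y : Fin m → ℚ, (∀ i, y i ∈ R) ∧
        aeval (Matrix.vecCons (a : ℚ) (Matrix.vecCons t y)) F = 0) ∧
      (a ∈ A ↔ {t ∈ D | ∀ y : Fin m → ℚ, (∀ i, y i ∈ R) →
        aeval (Matrix.vecCons (a : ℚ) (Matrix.vecCons t y)) F ≠ 0}.Finite) := by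
  obtain ⟨p, hp, huniv⟩ := universal
  have hS : REPred (fun a : Fin 1 → ℤ => a ∈ {a : Fin 1 → ℤ | p (a 0).toNat}) := by
    have h1 : Computable (fun a : Fin 1 → ℤ => (a 0).toNat) := by
      have h2 : Primrec (fun z : ℤ => z.toNat) := by
        have h3 : Primrec (fun n : ℕ => if n % 2 = 0 then n / 2 else 0) := by
          refine Primrec.ite (Primrec.eq.comp ?_ (Primrec.const 0)) ?_ (Primrec.const 0)
          · exact Primrec.nat_mod.comp Primrec.id (Primrec.const 2)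
          · exact Primrec.nat_div.comp Primrec.id (Primrec.const 2)
        refine (h3.comp (Primrec.encode (α := ℤ))).of_eq (fun z => ?_)
        rcases z with n | n
        · have e : Encodable.encode (Int.ofNat n) = 2 * n := rfl
          rw [e, if_pos (by omega)]
          simp
        · have e : Encodable.encode (Int.negSucc n) = 2 * n + 1 := rfl
          rw [e, if_neg (by omega)]
          rfl
      exact (h2.comp (Primrec.fin_app.comp Primrec.id (Primrec.const 0))).to_comp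
    exact N1.comp_re hp h1
  obtain ⟨m, F, hF⟩ := dense_one hS
  let F' : MvPolynomial (Fin (m + 2)) ℤ :=
    aeval (Sum.elim (fun _ : Fin 1 => X 0 + 1) (fun j : Fin (m + 1) => X j.succ)) F
  have ev : ∀ (a t : ℚ) (y : Fin m → ℚ), aeval (Matrix.vecCons a (Matrix.vecCons t y)) F' =
      aeval (Sum.elim (fun _ : Fin 1 => a + 1) (Matrix.vecCons t y)) F := by
    intro a t y
    simp only [F']
    rw [← AlgHom.comp_apply, comp_aeval]
    congr 2
    funext i
    rcases i with i | i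
    · simp
    · simp
  have key : ∀ a : ℕ, (p (padicValNat 3 (a + 1)) → ∀ P : ℚ → Prop, Thick P → ∃ t : ℚ, P t ∧
      ∀ y : Fin m → ℚ, aeval (Matrix.vecCons (a : ℚ) (Matrix.vecCons t y)) F' ≠ 0) ∧
      (¬ p (padicValNat 3 (a + 1)) → ∀ t : ℚ, ∃ y : Fin m → ℤ,
        aeval (Matrix.vecCons (a : ℚ) (Matrix.vecCons t (fun i => (y i : ℚ)))) F' = 0) := by
    intro a
    have h1 := hF (fun _ => (a : ℚ) + 1) (fun _ => (padicValNat 3 (a + 1) : ℤ)) (fun _ => by
      refine ⟨by positivity, ?_⟩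
      have : ((a : ℚ) + 1) = ((a + 1 : ℕ) : ℚ) := by push_cast; ring
      rw [this, padicValRat.of_nat])
    have e1 : ((fun _ => (padicValNat 3 (a + 1) : ℤ)) ∈ {a : Fin 1 → ℤ | p (a 0).toNat}) ↔
        p (padicValNat 3 (a + 1)) := by
      rw [Set.mem_ofPred_eq]
      simp
    rw [e1] at h1
    simp only [ev]
    exact h1
  have hco : REPred (fun a => a ∉ {a : ℕ | ¬ p (padicValNat 3 (a + 1))}) :=
    (N1.comp_re hp comp_val3).of_eq (fun a => by
      rw [Set.mem_ofPred_eq, not_not])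
  have hhard : ∀ B : Set ℕ, REPred (fun n => n ∉ B) →
      ∃ f : ℕ → ℕ, Computable f ∧ ∀ n, (n ∈ B ↔ f n ∈ {a : ℕ | ¬ p (padicValNat 3 (a + 1))}) := by
    intro B hB
    obtain ⟨g, hg, hgp⟩ := huniv _ hB
    refine ⟨fun n => 3 ^ g n - 1, ?_, fun n => ?_⟩
    · have h : Primrec₂ (fun a b : ℕ => a ^ b) := Primrec₂.unpaired'.1 Nat.Primrec.pow
      have h2 : Computable (fun n : ℕ => 3 ^ n - 1) :=
        (Primrec.nat_sub.comp (h.comp (Primrec.const 3) Primrec.id) (Primrec.const 1)).to_comp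
      exact h2.comp hg
    · have h3 : 3 ^ g n - 1 + 1 = 3 ^ g n := Nat.sub_add_cancel (Nat.one_le_pow _ _ (by norm_num))
      rw [Set.mem_ofPred_eq, h3]
      have h4 : padicValNat 3 (3 ^ g n) = g n := padicValNat.prime_pow (p := 3) (g n)
      rw [h4, ← hgp n, not_not]
  refine ⟨m, F', {a : ℕ | ¬ p (padicValNat 3 (a + 1))}, hco, ?_, hhard, ?_⟩
  · intro h
    obtain ⟨q, hq, hqn⟩ := N1.halting
    obtain ⟨f, hf, hfq⟩ := hhard {n | ¬ q n} (hq.of_eq (fun n => by
      rw [Set.mem_ofPred_eq, not_not]))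
    exact hqn ((N1.comp_re h hf).of_eq (fun n => (hfq n).symm))
  · intro R D hD a
    have hR : ∀ z : ℤ, (z : ℚ) ∈ R := fun z => intCast_mem R z
    have hfail : p (padicValNat 3 (a + 1)) → {t ∈ D | ∀ y : Fin m → ℚ, (∀ i, y i ∈ R) →
        aeval (Matrix.vecCons (a : ℚ) (Matrix.vecCons t y)) F' ≠ 0}.Infinite := by
      intro hpa
      have h1 := (key a).1 hpa
      rcases hD with ⟨c, d, hcd, hD⟩ | ⟨N, hD⟩
      · -- infinitely many in the interval
        intro hfin
        -- a subinterval that avoids the finite set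
        obtain ⟨c', hc1, hc2, hc3⟩ : ∃ c' : ℚ, c ≤ c' ∧ c' < d ∧ ∀ t ∈ {t ∈ D | ∀ y : Fin m → ℚ,
            (∀ i, y i ∈ R) → aeval (Matrix.vecCons (a : ℚ) (Matrix.vecCons t y)) F' ≠ 0},
            ¬ (c' < t ∧ t < d) := by
          obtain ⟨s, hs⟩ : ∃ s : Finset ℚ, ∀ t, t ∈ s ↔ t ∈ {t ∈ D | ∀ y : Fin m → ℚ,
              (∀ i, y i ∈ R) → aeval (Matrix.vecCons (a : ℚ) (Matrix.vecCons t y)) F' ≠ 0} :=
            ⟨hfin.toFinset, fun t => hfin.mem_toFinset⟩
          simp only [← hs]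
          clear hs
          induction s using Finset.induction_on with
          | empty => exact ⟨c, le_rfl, hcd, fun t ht => absurd ht (Finset.notMem_empty t)⟩
          | insert b s hb ih =>
            obtain ⟨c', h1, h2, h3⟩ := ih
            rcases le_or_gt b c' with h | h
            · refine ⟨c', h1, h2, fun t ht => ?_⟩
              rcases Finset.mem_insert.1 ht with rfl | ht
              · exact fun h' => absurd h'.1 (not_lt.2 h)
              · exact h3 t ht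
            · rcases le_or_gt d b with h' | h'
              · refine ⟨c', h1, h2, fun t ht => ?_⟩
                rcases Finset.mem_insert.1 ht with rfl | ht
                · exact fun h'' => absurd h''.2 (not_lt.2 h')
                · exact h3 t ht
              · refine ⟨b, h1.trans h.le, h', fun t ht => ?_⟩
                rcases Finset.mem_insert.1 ht with rfl | ht
                · exact fun h'' => absurd h''.1 (lt_irrefl _)
                · exact fun h'' => h3 t ht ⟨h.trans h''.1, h''.2⟩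
        obtain ⟨t, ⟨ht1, ht2⟩, ht3⟩ := h1 _ (thick_interval hc2)
        exact hc3 t ⟨hD t (hc1.trans_lt ht1) ht2, fun y _ => ht3 y⟩ ⟨ht1, ht2⟩
      · intro hfin
        obtain ⟨M, hM⟩ := hfin.bddAbove
        obtain ⟨t, ⟨n, hn, rfl⟩, ht3⟩ := h1 _ (thick_nat (max N (⌊M⌋₊ + 1)))
        have h2 : (n : ℚ) ≤ M := hM ⟨hD n ((le_max_left _ _).trans hn), fun y _ => ht3 y⟩
        have h3 : M < (⌊M⌋₊ + 1 : ℕ) := by push_cast; exact Nat.lt_floor_add_one M
        have h4 : ((⌊M⌋₊ + 1 : ℕ) : ℚ) ≤ n := by exact_mod_cast (le_max_right _ _).trans hn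
        linarith
    have hgood : ¬ p (padicValNat 3 (a + 1)) → ∀ t : ℚ, ∃ y : Fin m → ℚ, (∀ i, y i ∈ R) ∧
        aeval (Matrix.vecCons (a : ℚ) (Matrix.vecCons t y)) F' = 0 := by
      intro hpa t
      obtain ⟨y, hy⟩ := (key a).2 hpa t
      exact ⟨_, fun i => hR (y i), hy⟩
    rw [Set.mem_ofPred_eq]
    constructor
    · constructor
      · exact fun h t _ => hgood h t
      · intro h hpa
        obtain ⟨t, ht1, ht2⟩ := (hfail hpa).nonempty
        obtain ⟨y, hy1, hy2⟩ := h t ht1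
        exact ht2 y hy1 hy2
    · constructor
      · intro h
        have : {t ∈ D | ∀ y : Fin m → ℚ, (∀ i, y i ∈ R) →
            aeval (Matrix.vecCons (a : ℚ) (Matrix.vecCons t y)) F' ≠ 0} = ∅ := by
          ext t
          simp only [Set.mem_sep_iff, Set.mem_empty_iff_false, iff_false, not_and]
          intro _ h'
          obtain ⟨y, hy1, hy2⟩ := hgood h t
          exact h' y hy1 hy2
        rw [this]
        exact Set.finite_empty
      · exact fun h hpa => hfail hpa h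

end Vale.Agent.P027.H434
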