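import Vale.Agent.P027.H434.Transfer

set_option linter.all false

/-! The normal form with a natural number as the first unknown. -/

namespace Vale.Agent.P027.H434

open Vale.Agent.P027 Vale.Agent.P027.K2 Vale.Agent.P027.N1 MvPolynomial

theorem CP_dio {T : (ℕ → ℕ) → Prop} (hT : CP T) : ∃ (r : ℕ) (V0 V1 : (ℕ → ℚ) → Prop),
    Dio V0 ∧ Dio V1 ∧ (∀ v, V0 v → v 0 ≠ 0) ∧ ∀ (v : ℕ → ℚ) (e : ℕ → ℕ), (∀ i, v i ≠ 0 ∧ padicValRat 3 (v i) = e i) →
      (T e → ∃ (t : ℕ) (z : ℕ → ℚ), V0 (cns (t : ℚ) (apr r z v)) ∧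
        ∀ p : ℕ, p.Prime → 0 < padicValRat p (t : ℚ) →
          V1 (cns (p : ℚ) (cns (t : ℚ) (apr r z v)))) ∧
      ((∃ (t : ℚ) (z : ℕ → ℚ), V0 (cns t (apr r z v)) ∧
        ∀ p : ℕ, p.Prime → 0 < padicValRat p t → V1 (cns (p : ℚ) (cns t (apr r z v)))) → T e) := by
  obtain ⟨r, R0, R1, hR0, hR1, h⟩ := hT
  obtain ⟨W0, hW0, h0⟩ := hR0 1 0
  obtain ⟨W1, hW1, h1⟩ := hR1 1 0
  simp only [sub_one_zero'] at h0 h1
  refine ⟨r, fun v => v 0 ≠ 0 ∧ (∀ i < r, v (i + 1) ≠ 0 ∧ 0 ≤ padicValRat 3 (v (i + 1))) ∧ W0 v,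
    fun v => ∃ u : ℚ, (u ≠ 0 ∧ 0 ≤ padicValRat 3 u) ∧ Mem (v 0) u ∧
      W1 (cns (v 1) (cns u (tl (tl v)))), ?_, ?_, fun v hv => hv.1, ?_⟩
  · refine (Dio.ne (DioFn.var 0) zero_fn).and (Dio.and (Dio.forall_lt (fun i => ?_) r) hW0)
    exact (Dio.ne (DioFn.var _) zero_fn).and (dio_int3 (DioFn.var _))
  · refine Dio.ex (S := fun u v => (u ≠ 0 ∧ 0 ≤ padicValRat 3 u) ∧ Mem (v 0) u ∧
      W1 (cns (v 1) (cns u (tl (tl v))))) ?_
    refine ((Dio.ne (DioFn.var 0) zero_fn).and (dio_int3 (DioFn.var 0))).and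
      ((dio_mem (DioFn.var 1) (DioFn.var 0)).and ?_)
    refine (hW1.ren (fun i => if i = 0 then 2 else if i = 1 then 0 else i + 1)).congr (fun v => ?_)
    have : (cns (tl v 1) (cns (v 0) (tl (tl (tl v))))) =
        (fun i => v (if i = 0 then 2 else if i = 1 then 0 else i + 1)) := by
      funext i
      rcases i with _ | _ | i <;> rfl
    rw [this]
  · intro v e hv
    rw [h]
    constructor
    · rintro ⟨w, A, hA, g0, g1⟩
      choose ps hin hp3 hps using ec_prime
      obtain ⟨T0, hT0⟩ : ∃ T0 : ℕ, T0 = ∏ n ∈ hA.toFinset, ps n := ⟨_, rfl⟩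
      have hT0pos : T0 ≠ 0 := by
        rw [hT0]
        exact Finset.prod_ne_zero_iff.2 (fun n _ => (hin n).1.ne_zero)
      have ht0 : (T0 : ℚ) ≠ 0 := by exact_mod_cast hT0pos
      have hdvd : ∀ n ∈ A, 1 ≤ padicValRat (ps n) (T0 : ℚ) := by
        intro n hn
        have := Fact.mk (hin n).1
        have h2 : ps n ∣ T0 := by
          rw [hT0]
          exact Finset.dvd_prod_of_mem ps (hA.mem_toFinset.2 hn)
        rw [padicValRat.of_nat]
        exact_mod_cast one_le_padicValNat_of_dvd hT0pos h2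
      have hcap : ∀ (t : ℚ) (n : ℕ), 0 ≤ padicValRat 2 t → 1 ≤ padicValRat (ps n) t →
          ∃ x, Pos x n ∧ Mach t (kap x) := by
        intro t n h2 h3
        obtain ⟨x, hx, hxn⟩ := ec_exists n
        refine ⟨x, ⟨hx, hxn⟩, mach_complete (hin n) (hp3 n) h2 ?_ (Or.inr h3) (Or.inr ?_)⟩
        · rw [(ec_two hx).2]
        · have := (hps n x hx).2 hxn
          omega
      have hlow : Low (T0 : ℚ) A := fun n hn =>
        hcap _ n (zero_le_padicValRat_of_nat _) (hdvd n hn)
      have hz : ∀ i < r, ((3 : ℚ) ^ w i) ≠ 0 ∧ padicValRat 3 ((3 : ℚ) ^ w i) = w i := by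
        intro i _
        refine ⟨by positivity, ?_⟩
        rw [padicValRat.pow, v33, mul_one]
      have henc := enc_apr (t := (T0 : ℚ)) hv (z := fun i => 3 ^ w i) hz
      refine ⟨T0, fun i => 3 ^ w i, ⟨ht0, fun i hi => ?_, ?_⟩, fun p hp hpt => ?_⟩
      · rw [cns_succ]
        unfold apr
        rw [if_pos hi]
        obtain ⟨h2, h3⟩ := hz i hi
        exact ⟨h2, by rw [h3]; omega⟩
      · exact (h0 _ _ A henc).2 hlow g0
      · have hpT : p ∣ T0 := by
          by_contra hc
          rw [padicValRat.of_nat, padicValNat.eq_zero_of_not_dvd hc] at hpt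
          simp at hpt
        rw [hT0] at hpT
        obtain ⟨n, hn, hpn⟩ := (hp.prime.dvd_finsetProd_iff _).1 hpT
        have hn' : n ∈ A := hA.mem_toFinset.1 hn
        have hpe : p = ps n := (Nat.prime_dvd_prime_iff_eq hp (hin n).1).1 hpn
        have hu : (3 : ℚ) ^ n ≠ 0 := by positivity
        have hun : padicValRat 3 ((3 : ℚ) ^ n) = n := by
          rw [padicValRat.pow, v33, mul_one]
        refine ⟨3 ^ n, ⟨hu, by rw [hun]; omega⟩, ?_, ?_⟩
        · rw [cns_zero, mem_iff hu hun]
          refine hcap _ n ?_ ?_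
          · exact zero_le_padicValRat_of_nat _
          · have := Fact.mk (hin n).1
            rw [hpe, padicValRat.of_nat, padicValNat.self (hin n).1.one_lt]
            norm_num
        · have henc' : Enc (cns (T0 : ℚ) (cns (3 ^ n) (apr r (fun i => 3 ^ w i) v)))
              (nc n (ap r w e)) := by
            intro i
            rcases i with _ | i
            · exact ⟨hu, hun⟩
            · exact henc i
          exact (h1 _ _ A henc').2 hlow (g1 n hn')
    · rintro ⟨t, z, ⟨ht, hz, g0⟩, g1⟩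
      rw [cns_zero] at ht
      have hz' : ∀ i < r, z i ≠ 0 ∧ padicValRat 3 (z i) = ((padicValRat 3 (z i)).toNat : ℕ) := by
        intro i hi
        have := hz i hi
        rw [cns_succ] at this
        unfold apr at this
        rw [if_pos hi] at this
        exact ⟨this.1, by omega⟩
      have henc := enc_apr (t := t) hv (z := z) (w := fun i => (padicValRat 3 (z i)).toNat) hz'
      refine ⟨_, Pset t, pset_finite ht, (h0 _ _ _ henc).1 (up_pset ht) g0, fun n hn => ?_⟩
      obtain ⟨q, x, hq, hq3, hqt, hx, hqx⟩ := hn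
      obtain ⟨u, ⟨hu, hu3⟩, hm, hw⟩ := g1 q hq.1 (by omega)
      obtain ⟨n', hn'⟩ := Int.eq_ofNat_of_zero_le hu3
      rw [cns_zero, mem_iff hu hn'] at hm
      obtain ⟨x', hx', hm'⟩ := hm
      obtain ⟨q', hq', hq3', h2, h3⟩ := mach_sound hm'
      have hqq : q' = q := by
        have := Fact.mk hq'.1
        have h2' := h2.resolve_left (by exact_mod_cast hq.1.ne_zero)
        by_contra hne
        rw [padicValRat.of_nat, padicValNat_primes (hp := Fact.mk hq'.1) (hq := Fact.mk hq.1) hne] at h2'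
        norm_num at h2'
      subst hqq
      have h3' := h3.resolve_left (ec_two hx'.1).1
      have h4 := ec_unique hq hq3 hx.1 hx'.1 (by omega) (by omega)
      rw [hx.2, hx'.2] at h4
      have hnn : n' = n := by omega
      subst hnn
      have henc' : Enc (cns t (cns u (apr r z v)))
          (nc n' (ap r (fun i => (padicValRat 3 (z i)).toNat) e)) := by
        intro i
        rcases i with _ | i
        · exact ⟨hu, hn'⟩
        · exact henc i
      exact (h1 _ _ _ henc').1 (up_pset ht) hw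

theorem normal_int' {k : ℕ} {S : Set (Fin k → ℤ)} (hS : REPred (fun a => a ∈ S)) :
    ∃ (r : ℕ) (V0 V1 : (ℕ → ℚ) → Prop), Dio V0 ∧ Dio V1 ∧ (∀ v, V0 v → v 0 ≠ 0) ∧
      ∀ (v : ℕ → ℚ) (a : Fin k → ℤ),
      (∀ i : Fin k, v i ≠ 0 ∧ padicValRat 3 (v i) = a i) →
      (a ∈ S → ∃ (t : ℕ) (z : ℕ → ℚ), V0 (cns (t : ℚ) (apr r z v)) ∧
        ∀ p : ℕ, p.Prime → 0 < padicValRat p (t : ℚ) →
          V1 (cns (p : ℚ) (cns (t : ℚ) (apr r z v)))) ∧
      ((∃ (t : ℚ) (z : ℕ → ℚ), V0 (cns t (apr r z v)) ∧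
        ∀ p : ℕ, p.Prime → 0 < padicValRat p t → V1 (cns (p : ℚ) (cns t (apr r z v)))) → a ∈ S) := by
  obtain ⟨r, V0, V1, hV0, hV1, hne, h⟩ := CP_dio (CP.of_rePred (rePred_pairs hS))
  refine ⟨r + 2 * k + 1, fun v => (v (r + 2 * k + 1) = 1 ∧
      (∀ i < k, Can (v (r + 2 * k + 1 + 1 + i)) (v (r + 2 * i + 1)) (v (r + 2 * i + 1 + 1)))) ∧
      V0 (fun i => v (min i (r + 2 * k + 1))),
    fun v => V1 (fun i => v (min i (r + 2 * k + 2))), ?_, hV1.ren _,
    fun v hv => by simpa only [ne_eq, le_add_iff_nonneg_left, zero_le, inf_of_le_left] using hne _ hv.2, ?_⟩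
  · exact ((Dio.eq (DioFn.var _) one_fn).and (Dio.forall_lt (fun i => dio_can _ _ _) k)).and
      (hV0.ren _)
  · intro v a hv
    let w : ℕ → ℚ := fun j => if j < 2 * k then
      (if j % 2 = 0 then (if 0 ≤ padicValRat 3 (v (j / 2)) then v (j / 2) else 1)
        else (if 0 ≤ padicValRat 3 (v (j / 2)) then 1 else 1 / v (j / 2))) else 1
    let e : ℕ → ℕ := fun j => if h : j < 2 * k then
      (if j % 2 = 0 then (a ⟨j / 2, by omega⟩).toNat else (-a ⟨j / 2, by omega⟩).toNat) else 0
    have hwe : ∀ j, w j ≠ 0 ∧ padicValRat 3 (w j) = e j := by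
      intro j
      by_cases hj : j < 2 * k
      · obtain ⟨h0, h1⟩ := hv ⟨j / 2, by omega⟩
        simp only at h0 h1
        simp only [w, e, if_pos hj, dif_pos hj]
        split_ifs with h2 h3 h4
        · exact ⟨h0, by rw [h1] at h3 ⊢; omega⟩
        · refine ⟨one_ne_zero, ?_⟩
          rw [h1] at h3
          rw [padicValRat.one]
          omega
        · refine ⟨one_ne_zero, ?_⟩
          rw [h1] at h4
          rw [padicValRat.one]
          omega
        · refine ⟨one_div_ne_zero h0, ?_⟩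
          rw [padicValRat.div one_ne_zero h0, padicValRat.one, h1]
          rw [h1] at h4
          omega
      · simp only [w, e, if_neg hj, dif_neg hj]
        exact ⟨one_ne_zero, by simp⟩
    have hT : (fun i : Fin (2 * k) => e i) ∈ {a : Fin (2 * k) → ℕ | (fun i : Fin k =>
        ((a ⟨2 * i, by omega⟩ : ℕ) : ℤ) - ((a ⟨2 * i + 1, by omega⟩ : ℕ) : ℤ)) ∈ S} ↔ a ∈ S := by
      have : (fun i : Fin k => ((e (2 * i) : ℕ) : ℤ) - ((e (2 * i + 1) : ℕ) : ℤ)) = a := by
        funext i
        have h1 : 2 * (i : ℕ) < 2 * k := by omega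
        have h2 : 2 * (i : ℕ) + 1 < 2 * k := by omega
        have h3 : (2 * (i : ℕ)) % 2 = 0 := by omega
        have h4 : ¬ (2 * (i : ℕ) + 1) % 2 = 0 := by omega
        simp only [e, dif_pos h1, dif_pos h2, if_pos h3, if_neg h4]
        have h5 : (⟨2 * (i : ℕ) / 2, by omega⟩ : Fin k) = i := by
          apply Fin.ext; simp
        have h6 : (⟨(2 * (i : ℕ) + 1) / 2, by omega⟩ : Fin k) = i := by
          apply Fin.ext; simp only; omega
        rw [h5, h6]
        omega
      rw [Set.mem_ofPred_eq]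
      simp only
      rw [this]
    have hw5 : ∀ i < k, w (2 * i) = (if 0 ≤ padicValRat 3 (v i) then v i else 1) ∧
        w (2 * i + 1) = (if 0 ≤ padicValRat 3 (v i) then 1 else 1 / v i) := by
      intro i hi
      have h1 : 2 * i < 2 * k := by omega
      have h2 : 2 * i + 1 < 2 * k := by omega
      have h3 : (2 * i) % 2 = 0 := by omega
      have h4 : ¬ (2 * i + 1) % 2 = 0 := by omega
      have h5 : 2 * i / 2 = i := by omega
      have h6 : (2 * i + 1) / 2 = i := by omega
      simp only [w, if_pos h1, if_pos h2, if_pos h3, if_neg h4, h5, h6]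
      exact ⟨trivial, trivial⟩
    -- the environments
    have env : ∀ (t : ℚ) (z : ℕ → ℚ), (∀ i < 2 * k, z (r + i) = w i) → z (r + 2 * k) = 1 →
        (fun i => cns t (apr (r + 2 * k + 1) z v) (min i (r + 2 * k + 1))) =
          cns t (apr r z w) := by
      intro t z hz hz1
      funext i
      rcases i with _ | i
      · rw [Nat.zero_min]; rfl
      · rw [cns_succ]
        by_cases hi : i < r + 2 * k
        · rw [min_eq_left (by omega), cns_succ]
          unfold apr
          rw [if_pos (by omega)]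
          by_cases hi' : i < r
          · rw [if_pos hi']
          · rw [if_neg hi', ← hz (i - r) (by omega)]
            congr 1
            omega
        · rw [min_eq_right (by omega), cns_succ]
          unfold apr
          rw [if_pos (by omega), if_neg (by omega), hz1]
          simp only [w]
          rw [if_neg (by omega)]
    have env1 : ∀ (p t : ℚ) (z : ℕ → ℚ), (∀ i < 2 * k, z (r + i) = w i) → z (r + 2 * k) = 1 →
        (fun i => cns p (cns t (apr (r + 2 * k + 1) z v)) (min i (r + 2 * k + 2))) =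
          cns p (cns t (apr r z w)) := by
      intro p t z hz hz1
      funext i
      rcases i with _ | i
      · rw [Nat.zero_min]; rfl
      · have e1 : min (i + 1) (r + 2 * k + 2) = min i (r + 2 * k + 1) + 1 := by omega
        rw [e1, cns_succ, cns_succ, ← env t z hz hz1]
    have hcan : ∀ (t : ℚ) (z : ℕ → ℚ), (cns t (apr (r + 2 * k + 1) z v) (r + 2 * k + 1) = 1 ∧
        (∀ i < k, Can (cns t (apr (r + 2 * k + 1) z v) (r + 2 * k + 1 + 1 + i))
          (cns t (apr (r + 2 * k + 1) z v) (r + 2 * i + 1))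
          (cns t (apr (r + 2 * k + 1) z v) (r + 2 * i + 1 + 1)))) ↔
        (z (r + 2 * k) = 1 ∧ ∀ i < 2 * k, z (r + i) = w i) := by
      intro t z
      have c1 : ∀ i, i < r + 2 * k + 1 → cns t (apr (r + 2 * k + 1) z v) (i + 1) = z i := by
        intro i hi
        rw [cns_succ]
        unfold apr
        rw [if_pos hi]
      have c2 : ∀ i, cns t (apr (r + 2 * k + 1) z v) (r + 2 * k + 1 + 1 + i) = v i := by
        intro i
        have : r + 2 * k + 1 + 1 + i = (r + 2 * k + 1 + i) + 1 := by omega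
        rw [this, cns_succ]
        unfold apr
        rw [if_neg (by omega), Nat.add_sub_cancel_left]
      rw [c1 _ (by omega)]
      constructor
      · rintro ⟨h1, h2⟩
        refine ⟨h1, fun i hi => ?_⟩
        have h3 := h2 (i / 2) (by omega)
        rw [c2, can_iff (hv ⟨i / 2, by omega⟩).1, c1 _ (by omega), c1 _ (by omega)] at h3
        obtain ⟨h5, h6⟩ := hw5 (i / 2) (by omega)
        rw [← h5, ← h6] at h3
        rcases Nat.mod_two_eq_zero_or_one i with h7 | h7
        · have h8 : 2 * (i / 2) = i := by omega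
          simp only [h8] at h3
          exact h3.1
        · have h8 : 2 * (i / 2) + 1 = i := by omega
          have h9 : r + 2 * (i / 2) + 1 = r + i := by omega
          rw [h8, h9] at h3
          exact h3.2
      · rintro ⟨h1, h2⟩
        refine ⟨h1, fun i hi => ?_⟩
        rw [c2, can_iff (hv ⟨i, hi⟩).1, c1 _ (by omega), c1 _ (by omega)]
        obtain ⟨h5, h6⟩ := hw5 i hi
        rw [← h5, ← h6, ← h2 (2 * i) (by omega), ← h2 (2 * i + 1) (by omega)]
        exact ⟨rfl, rfl⟩
    rw [← hT]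
    have h' := h w e hwe
    constructor
    · intro ha
      obtain ⟨t, z, g0, g1⟩ := h'.1 ha
      let z' : ℕ → ℚ := fun i => if i < r then z i else w (i - r)
      have hz' : ∀ i < 2 * k, z' (r + i) = w i := by
        intro i _
        simp only [z']
        rw [if_neg (by omega), Nat.add_sub_cancel_left]
      have hz1 : z' (r + 2 * k) = 1 := by
        simp only [z', w]
        rw [if_neg (by omega), Nat.add_sub_cancel_left, if_neg (by omega)]
      have hzz : apr r z' w = apr r z w := by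
        funext i
        unfold apr
        by_cases hi : i < r
        · rw [if_pos hi, if_pos hi]
          simp only [z']
          rw [if_pos hi]
        · rw [if_neg hi, if_neg hi]
      refine ⟨t, z', ⟨(hcan t z').2 ⟨hz1, hz'⟩, ?_⟩, fun p hp hpt => ?_⟩
      · rw [env t z' hz' hz1, hzz]
        exact g0
      · beta_reduce
        rw [env1 _ t z' hz' hz1, hzz]
        exact g1 p hp hpt
    · rintro ⟨t, z, ⟨g, g0⟩, g1⟩
      obtain ⟨hz1, hz'⟩ := (hcan t z).1 g
      rw [env t z hz' hz1] at g0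
      refine h'.2 ⟨t, z, g0, fun p hp hpt => ?_⟩
      have := g1 p hp hpt
      beta_reduce at this
      rw [env1 _ t z hz' hz1] at this
      exact this

end Vale.Agent.P027.H434
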