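import Vale.Agent.P027.H434.Normal

set_option linter.all false

/-! The normal form with integral unknowns. -/

namespace Vale.Agent.P027.H434

open Vale.Agent.P027 Vale.Agent.P027.K2 Vale.Agent.P027.N1 MvPolynomial

/-- normal form of recursively enumerable relations of three-adic valuations -/
theorem normal_form1 (k : ℕ) (S : Set (Fin k → ℤ)) (hS : REPred (fun a => a ∈ S)) :
    ∃ (r m : ℕ) (G : MvPolynomial (Fin k ⊕ Fin (r + 1)) ℤ)
      (F : MvPolynomial (Fin k ⊕ (Fin (r + 1) ⊕ Fin (m + 1))) ℤ),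
      ∀ (α : Fin k → ℚ) (a : Fin k → ℤ), (∀ i, α i ≠ 0 ∧ padicValRat 3 (α i) = a i) →
        (a ∈ S → ∃ (t : ℕ) (z : Fin r → ℚ), t ≠ 0 ∧
          aeval (Sum.elim α (Matrix.vecCons (t : ℚ) z)) G = 0 ∧
          ∀ p : ℕ, p.Prime → p ∣ t → ∃ y : Fin m → ℚ,
            aeval (Sum.elim α (Sum.elim (Matrix.vecCons (t : ℚ) z)
              (Matrix.vecCons (p : ℚ) y))) F = 0) ∧
        ((∃ z : Fin (r + 1) → ℚ, z 0 ≠ 0 ∧ aeval (Sum.elim α z) G = 0 ∧
          ∀ p : ℕ, p.Prime → (p : ℤ) ∣ (z 0).num → ∃ y : Fin m → ℚ,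
            aeval (Sum.elim α (Sum.elim z (Matrix.vecCons (p : ℚ) y))) F = 0) → a ∈ S) := by
  obtain ⟨r, V0, V1, ⟨p0, hp0⟩, ⟨p1, hp1⟩, hne, h⟩ := normal_int' hS
  have bound : ∀ p : MvPolynomial (ℕ ⊕ ℕ) ℤ, ∃ m : ℕ, ∀ j, Sum.inr j ∈ p.vars → j < m := by
    intro p
    refine ⟨(p.vars.toRight.sup id).succ, fun j hj => ?_⟩
    rw [Nat.lt_succ_iff]
    exact Finset.le_sup (f := id) (by simpa using hj)
  obtain ⟨m0, hm0⟩ := bound p0
  obtain ⟨m1, hm1⟩ := bound p1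
  let v : (Fin k → ℚ) → ℕ → ℚ := fun α i => if h : i < k then α ⟨i, h⟩ else 1
  let Z : (Fin (r + m0 + 1) → ℚ) → ℕ → ℚ := fun z i =>
    if h : i + 1 < r + m0 + 1 then z ⟨i + 1, h⟩ else 0
  let φ : ℕ ⊕ ℕ → MvPolynomial (Fin k ⊕ Fin (r + m0 + 1)) ℤ :=
    Sum.elim (fun i => Nat.rec (X (Sum.inr 0)) (fun i _ => if i < r then
        (if h : i + 1 < r + m0 + 1 then X (Sum.inr ⟨i + 1, h⟩) else 0) else
        (if h : i - r < k then X (Sum.inl ⟨i - r, h⟩) else 1)) i)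
      (fun j => if h : j < m0 then X (Sum.inr ⟨r + j + 1, by omega⟩) else 0)
  let ψ : ℕ ⊕ ℕ → MvPolynomial (Fin k ⊕ (Fin (r + m0 + 1) ⊕ Fin (m1 + 1))) ℤ :=
    Sum.elim (fun i => Nat.rec (X (Sum.inr (Sum.inr 0))) (fun i _ =>
        Nat.rec (X (Sum.inr (Sum.inl 0))) (fun i _ => if i < r then
        (if h : i + 1 < r + m0 + 1 then X (Sum.inr (Sum.inl ⟨i + 1, h⟩)) else 0) else
        (if h : i - r < k then X (Sum.inl ⟨i - r, h⟩) else 1)) i) i)
      (fun j => if h : j < m1 then X (Sum.inr (Sum.inr ⟨j + 1, by omega⟩)) else 0)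
  refine ⟨r + m0, m1, aeval φ p0, aeval ψ p1, fun α a ha => ?_⟩
  have hv : ∀ i : Fin k, v α i ≠ 0 ∧ padicValRat 3 (v α i) = a i := by
    intro i
    simp only [v, dif_pos i.2]
    exact ha i
  have h' := h (v α) a hv
  have evG : ∀ z : Fin (r + m0 + 1) → ℚ, aeval (Sum.elim α z) (aeval φ p0) =
      aeval (Sum.elim (cns (z 0) (apr r (Z z) (v α)))
        (fun j => if j < m0 then Z z (r + j) else 0)) p0 := by
    intro z
    rw [← AlgHom.comp_apply, comp_aeval]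
    congr 2
    funext i
    rcases i with (_ | i) | i
    · simp [φ, cns_zero]
    · simp only [φ, Sum.elim_inl, cns_succ, apr, Z, v]
      split_ifs <;> simp
    · simp only [φ, Sum.elim_inr, Z]
      split_ifs with h1 h2
      · rw [aeval_X]; rfl
      · omega
      · simp
  have evF : ∀ (z : Fin (r + m0 + 1) → ℚ) (p : ℚ) (y : Fin m1 → ℚ),
      aeval (Sum.elim α (Sum.elim z (Matrix.vecCons p y))) (aeval ψ p1) =
      aeval (Sum.elim (cns p (cns (z 0) (apr r (Z z) (v α))))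
        (fun j => if h : j < m1 then y ⟨j, h⟩ else 0)) p1 := by
    intro z p y
    rw [← AlgHom.comp_apply, comp_aeval]
    congr 2
    funext i
    rcases i with (_ | _ | i) | i
    · simp [ψ, cns_zero]
    · simp [ψ, cns_zero, cns_succ]
    · simp only [ψ, Sum.elim_inl, cns_succ, apr, Z, v]
      split_ifs <;> simp
    · simp only [ψ, Sum.elim_inr]
      split_ifs with h
      · rw [aeval_X]
        rfl
      · simp
  have trunc : ∀ (p : MvPolynomial (ℕ ⊕ ℕ) ℤ) (m : ℕ), (∀ j, Sum.inr j ∈ p.vars → j < m) →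
      ∀ (x w w' : ℕ → ℚ), (∀ j < m, w j = w' j) → aeval (Sum.elim x w) p = 0 →
        aeval (Sum.elim x w') p = 0 := by
    intro p m hm x w w' hw hp
    refine Eq.trans ?_ hp
    refine eval₂Hom_congr' rfl ?_ rfl
    intro i hi _
    rcases i with i | i
    · rfl
    · exact (hw i (hm i hi)).symm
  constructor
  · intro haS
    obtain ⟨t, z, h0, h1⟩ := h'.1 haS
    obtain ⟨w, hw⟩ := (hp0 _).1 h0
    let Y : Fin (r + m0 + 1) → ℚ := fun i => if (i : ℕ) = 0 then (t : ℚ) else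
      if (i : ℕ) - 1 < r then z ((i : ℕ) - 1) else w ((i : ℕ) - 1 - r)
    have hY0 : Y 0 = t := rfl
    have hYc : Matrix.vecCons (t : ℚ) (fun i : Fin (r + m0) => Y i.succ) = Y := by
      funext i
      refine Fin.cases ?_ (fun j => ?_) i <;> rfl
    have hYz : apr r (Z Y) (v α) = apr r z (v α) := by
      funext i
      unfold apr
      by_cases hi : i < r
      · rw [if_pos hi, if_pos hi]
        simp only [Z, Y]
        rw [dif_pos (by omega), if_neg (by omega), if_pos (by omega)]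
        rfl
      · rw [if_neg hi, if_neg hi]
    have ht0 : (t : ℚ) ≠ 0 := by simpa only [cns_zero] using hne _ h0
    refine ⟨t, fun i => Y i.succ, by exact_mod_cast ht0, ?_, fun p hp hpt => ?_⟩
    · rw [hYc, evG, hY0, hYz]
      refine trunc p0 m0 hm0 _ w _ (fun j hj => ?_) hw
      simp only [Z, Y]
      rw [if_pos hj, dif_pos (by omega), if_neg (by omega), if_neg (by omega)]
      congr 1
      omega
    · obtain ⟨w', hw'⟩ := (hp1 _).1 (h1 p hp ((dvd_num_iff ht0 hp).1 (by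
        rw [Rat.num_natCast]; exact_mod_cast hpt)))
      refine ⟨fun j => w' j, ?_⟩
      rw [hYc, evF, hY0, hYz]
      refine trunc p1 m1 hm1 _ w' _ (fun j hj => ?_) hw'
      rw [dif_pos hj]
  · rintro ⟨z, hz0, h0, h1⟩
    rw [evG] at h0
    refine h'.2 ⟨z 0, Z z, (hp0 _).2 ⟨_, h0⟩, fun p hp hpt => ?_⟩
    obtain ⟨y, hy⟩ := h1 p hp ((dvd_num_iff hz0 hp).2 hpt)
    rw [evF] at hy
    exact (hp1 _).2 ⟨_, hy⟩

/-- every rational vector is an integral vector over the common denominator -/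
theorem scale {m : ℕ} (y : Fin m → ℚ) : ∃ z : Fin (m + 4) → ℤ,
    (fun j => (z (Fin.castAdd 4 j) : ℚ) / dn (fun i => (z i : ℚ))) = y := by
  set W : ℕ := ∏ j, (y j).den with hW
  have hW0 : 0 < W := Finset.prod_pos (fun j _ => (y j).den_pos)
  have hu : ∀ j, ∃ u : ℤ, (u : ℚ) = y j * W := by
    intro j
    obtain ⟨c, hc⟩ := Finset.dvd_prod_of_mem (fun j => (y j).den) (Finset.mem_univ j)
    refine ⟨(y j).num * c, ?_⟩
    rw [hW, hc]
    push_cast
    rw [← mul_assoc, Rat.mul_den_eq_num]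
  choose u hu using hu
  obtain ⟨a, b, c, d, hs⟩ := Nat.sum_four_squares (W - 1)
  have hs' : (a : ℚ) ^ 2 + (b : ℚ) ^ 2 + (c : ℚ) ^ 2 + (d : ℚ) ^ 2 + 1 = W := by
    have : a ^ 2 + b ^ 2 + c ^ 2 + d ^ 2 + 1 = W := by omega
    exact_mod_cast this
  refine ⟨Fin.append u ![(a : ℤ), (b : ℤ), (c : ℤ), (d : ℤ)], ?_⟩
  have hdn : dn (fun i => ((Fin.append u ![(a : ℤ), (b : ℤ), (c : ℤ), (d : ℤ)] i : ℤ) : ℚ)) =
      W := by
    unfold dn
    simp only [Fin.append_right]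
    rw [← hs']
    simp
    ring
  rw [hdn]
  funext j
  rw [Fin.append_left, hu]
  have : (W : ℚ) ≠ 0 := by exact_mod_cast hW0.ne'
  field_simp

theorem normal_sub (k : ℕ) (S : Set (Fin k → ℤ)) (hS : REPred (fun a => a ∈ S)) :
    ∃ (r m : ℕ) (G : MvPolynomial (Fin k ⊕ Fin (r + 1)) ℤ)
      (F : MvPolynomial (Fin k ⊕ (Fin (r + 1) ⊕ Fin (m + 1))) ℤ),
      ∀ (R : Subring ℚ) (α : Fin k → ℚ) (a : Fin k → ℤ),
        (∀ i, α i ≠ 0 ∧ padicValRat 3 (α i) = a i) →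
        (a ∈ S ↔ ∃ z : Fin (r + 1) → ℚ, (∀ i, z i ∈ R) ∧ z 0 ≠ 0 ∧ aeval (Sum.elim α z) G = 0 ∧
          ∀ p : ℕ, p.Prime → (p : ℤ) ∣ (z 0).num → ∃ y : Fin m → ℚ, (∀ i, y i ∈ R) ∧
            aeval (Sum.elim α (Sum.elim z (Matrix.vecCons (p : ℚ) y))) F = 0) := by
  obtain ⟨r, m, G, F, h⟩ := normal_form1 k S hS
  -- the first polynomial
  let g1 : Fin k ⊕ Fin (r + 1) → (Fin k ⊕ Unit) ⊕ Fin r :=
    Sum.elim (fun i => Sum.inl (Sum.inl i)) (Fin.cons (Sum.inl (Sum.inr ())) (fun j => Sum.inr j))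
  let g2 : (Fin k ⊕ Unit) ⊕ Fin (r + 4) → Fin k ⊕ Fin (r + 4 + 1) :=
    Sum.elim (Sum.elim Sum.inl (fun _ => Sum.inr 0)) (fun j => Sum.inr j.succ)
  obtain ⟨N, G', hG'⟩ := hom_exists (rename g1 G)
  have e1 : ∀ (α : Fin k → ℚ) (z : Fin (r + 4 + 1) → ℚ),
      aeval (Sum.elim α z) (rename g2 G') = dn (fun i => z i.succ) ^ N *
        aeval (Sum.elim α (Matrix.vecCons (z 0) (fun j : Fin r =>
          z (Fin.castAdd 4 j).succ / dn (fun i => z i.succ)))) G := by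
    intro α z
    have a1 : aeval (Sum.elim α z) (rename g2 G') =
        aeval (Sum.elim (Sum.elim α (fun _ : Unit => z 0)) (fun i => z i.succ)) G' := by
      rw [aeval_rename]
      congr 2
      funext i
      rcases i with (i | i) | i <;> rfl
    have a2 : ∀ w : Fin r → ℚ, aeval (Sum.elim (Sum.elim α (fun _ : Unit => z 0)) w) (rename g1 G) =
        aeval (Sum.elim α (Matrix.vecCons (z 0) w)) G := by
      intro w
      rw [aeval_rename]
      congr 2
      funext i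
      rcases i with i | i
      · rfl
      · refine Fin.cases ?_ (fun j => ?_) i <;> rfl
    rw [a1, hG', a2]
  -- the second polynomial
  let f1 : Fin k ⊕ (Fin (r + 1) ⊕ Fin (m + 1)) → (Fin k ⊕ (Unit ⊕ Fin (m + 1))) ⊕ Fin r :=
    Sum.elim (fun i => Sum.inl (Sum.inl i)) (Sum.elim
      (Fin.cons (Sum.inl (Sum.inr (Sum.inl ()))) (fun j => Sum.inr j))
      (fun i => Sum.inl (Sum.inr (Sum.inr i))))
  obtain ⟨M, F1, hF1⟩ := hom_exists (rename f1 F)
  let f2 : (Fin k ⊕ (Unit ⊕ Fin (m + 1))) ⊕ Fin (r + 4) →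
      (Fin k ⊕ (Fin (r + 4 + 1) ⊕ Unit)) ⊕ Fin m :=
    Sum.elim (Sum.elim (fun i => Sum.inl (Sum.inl i)) (Sum.elim
      (fun _ => Sum.inl (Sum.inr (Sum.inl 0)))
      (Fin.cons (Sum.inl (Sum.inr (Sum.inr ()))) (fun j => Sum.inr j))))
      (fun j => Sum.inl (Sum.inr (Sum.inl j.succ)))
  obtain ⟨L, F2, hF2⟩ := hom_exists (rename f2 F1)
  let f3 : (Fin k ⊕ (Fin (r + 4 + 1) ⊕ Unit)) ⊕ Fin (m + 4) →
      Fin k ⊕ (Fin (r + 4 + 1) ⊕ Fin (m + 4 + 1)) :=
    Sum.elim (Sum.elim Sum.inl (Sum.elim (fun i => Sum.inr (Sum.inl i))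
      (fun _ => Sum.inr (Sum.inr 0)))) (fun j => Sum.inr (Sum.inr j.succ))
  have e2 : ∀ (α : Fin k → ℚ) (z : Fin (r + 4 + 1) → ℚ) (p : ℚ) (y : Fin (m + 4) → ℚ),
      aeval (Sum.elim α (Sum.elim z (Matrix.vecCons p y))) (rename f3 F2) =
        dn y ^ L * (dn (fun i => z i.succ) ^ M *
          aeval (Sum.elim α (Sum.elim (Matrix.vecCons (z 0) (fun j : Fin r =>
            z (Fin.castAdd 4 j).succ / dn (fun i => z i.succ)))
            (Matrix.vecCons p (fun j : Fin m => y (Fin.castAdd 4 j) / dn y)))) F) := by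
    intro α z p y
    have a1 : aeval (Sum.elim α (Sum.elim z (Matrix.vecCons p y))) (rename f3 F2) =
        aeval (Sum.elim (Sum.elim α (Sum.elim z (fun _ : Unit => p))) y) F2 := by
      rw [aeval_rename]
      congr 2
      funext i
      rcases i with (i | i | i) | i <;> rfl
    have a2 : ∀ w : Fin m → ℚ,
        aeval (Sum.elim (Sum.elim α (Sum.elim z (fun _ : Unit => p))) w) (rename f2 F1) =
        aeval (Sum.elim (Sum.elim α (Sum.elim (fun _ : Unit => z 0) (Matrix.vecCons p w)))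
          (fun i => z i.succ)) F1 := by
      intro w
      rw [aeval_rename]
      congr 2
      funext i
      rcases i with (i | i | i) | i
      · rfl
      · rfl
      · refine Fin.cases ?_ (fun j => ?_) i <;> rfl
      · rfl
    have a3 : ∀ (w : Fin m → ℚ) (u : Fin r → ℚ),
        aeval (Sum.elim (Sum.elim α (Sum.elim (fun _ : Unit => z 0) (Matrix.vecCons p w))) u)
          (rename f1 F) =
        aeval (Sum.elim α (Sum.elim (Matrix.vecCons (z 0) u) (Matrix.vecCons p w))) F := by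
      intro w u
      rw [aeval_rename]
      congr 2
      funext i
      rcases i with i | i | i
      · rfl
      · refine Fin.cases ?_ (fun j => ?_) i <;> rfl
      · rfl
    rw [a1, hF2, a2, hF1, a3]
  refine ⟨r + 4, m + 4, rename g2 G', rename f3 F2, fun R α a ha => ?_⟩
  have h' := h α a ha
  have hR : ∀ z : ℤ, (z : ℚ) ∈ R := fun z => intCast_mem R z
  constructor
  · intro haS
    obtain ⟨t, z, ht, h0, h1⟩ := h'.1 haS
    obtain ⟨u, hu⟩ := scale z
    refine ⟨fun i => ((Matrix.vecCons (t : ℤ) u i : ℤ) : ℚ), fun i => hR _, ?_, ?_,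
      fun p hp hpt => ?_⟩
    · simpa using ht
    · rw [e1]
      have b1 : (fun i : Fin (r + 4) => ((Matrix.vecCons (t : ℤ) u i.succ : ℤ) : ℚ)) =
          fun i => (u i : ℚ) := rfl
      have b2 : (fun j : Fin r => ((Matrix.vecCons (t : ℤ) u (Fin.castAdd 4 j).succ : ℤ) : ℚ) /
          dn (fun i => (u i : ℚ))) = z := hu
      have b3 : ((Matrix.vecCons (t : ℤ) u 0 : ℤ) : ℚ) = (t : ℚ) := by simp
      rw [b1, b2, b3, h0, mul_zero]
    · have hpt' : p ∣ t := by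
        have b4 : ((Matrix.vecCons (t : ℤ) u 0 : ℤ) : ℚ) = (t : ℚ) := by simp
        change (p : ℤ) ∣ (((Matrix.vecCons (t : ℤ) u 0 : ℤ) : ℚ)).num at hpt
        rw [b4, Rat.num_natCast] at hpt
        exact_mod_cast hpt
      obtain ⟨y, hy⟩ := h1 p hp hpt'
      obtain ⟨w, hw⟩ := scale y
      refine ⟨fun i => (w i : ℚ), fun i => hR _, ?_⟩
      rw [e2]
      have b1 : (fun i : Fin (r + 4) => ((Matrix.vecCons (t : ℤ) u i.succ : ℤ) : ℚ)) =
          fun i => (u i : ℚ) := rfl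
      have b2 : (fun j : Fin r => ((Matrix.vecCons (t : ℤ) u (Fin.castAdd 4 j).succ : ℤ) : ℚ) /
          dn (fun i => (u i : ℚ))) = z := hu
      have b3 : ((Matrix.vecCons (t : ℤ) u 0 : ℤ) : ℚ) = (t : ℚ) := by simp
      rw [b1, b2, b3, hw, hy, mul_zero, mul_zero]
  · rintro ⟨z, -, hz0, h0, h1⟩
    rw [e1] at h0
    refine h'.2 ⟨Matrix.vecCons (z 0) (fun j : Fin r =>
      z (Fin.castAdd 4 j).succ / dn (fun i => z i.succ)), hz0,
      (mul_eq_zero.1 h0).resolve_left (pow_ne_zero _ (dn_pos _).ne'), fun p hp hpt => ?_⟩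
    obtain ⟨y, -, hy⟩ := h1 p hp hpt
    rw [e2] at hy
    exact ⟨_, (mul_eq_zero.1 ((mul_eq_zero.1 hy).resolve_left
      (pow_ne_zero _ (dn_pos _).ne'))).resolve_left (pow_ne_zero _ (dn_pos _).ne')⟩

end Vale.Agent.P027.H434
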