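import Vale.Agent.P027.Bdl.B1

set_option linter.all false

/-! Codes of finite sets in arbitrary thick sets of rational numbers. -/

namespace Vale.Agent.P027.H434

open Vale.Agent.P027 Vale.Agent.P027.K2

/-- the set contains codes of all finite sets -/
def Thick (P : ℚ → Prop) : Prop := ∀ S : Finset ℕ, (∀ q ∈ S, Inert q) → S.card % 2 = 1 →
  ∃ t : ℚ, P t ∧ Three8 t ∧ ∀ p, Inert p → padicValRat p t = if p ∈ S then 1 else 0

theorem exists_upper' {A : Set ℕ} (hA : A.Finite) {P : ℚ → Prop} (hP : Thick P) :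
    ∃ t : ℚ, P t ∧ ¬ Basic t ∧ Upper t A := by
  choose ps hin hp3 hps using ec_prime
  have hp5 : ∀ n, ps n ≠ 5 := by
    intro n h
    obtain ⟨x, hx, hxn⟩ := ec_exists n
    have h1 := (hps n x hx).2 hxn
    rw [h] at h1
    exact absurd (ec_five hx) (by omega)
  have h5 : Inert 5 := ⟨by norm_num, Or.inr (by norm_num)⟩
  obtain ⟨S, hS1, hS2, hS3⟩ : ∃ S : Finset ℕ, (∀ q ∈ S, q = 5 ∨ ∃ n ∈ A, q = ps n) ∧
      (∀ n ∈ A, ps n ∈ S) ∧ S.card % 2 = 1 := by
    have hmem : ∀ q, q ∈ hA.toFinset.image ps → ∃ n ∈ A, q = ps n := by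
      intro q hq
      obtain ⟨n, hn, rfl⟩ := Finset.mem_image.1 hq
      exact ⟨n, hA.mem_toFinset.1 hn, rfl⟩
    have hmem' : ∀ n ∈ A, ps n ∈ hA.toFinset.image ps := fun n hn =>
      Finset.mem_image_of_mem _ (hA.mem_toFinset.2 hn)
    have h5' : 5 ∉ hA.toFinset.image ps := by
      intro h
      obtain ⟨n, -, h⟩ := hmem 5 h
      exact hp5 n h.symm
    rcases Nat.mod_two_eq_zero_or_one (hA.toFinset.image ps).card with h | h
    · refine ⟨insert 5 (hA.toFinset.image ps), ?_, ?_, ?_⟩
      · intro q hq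
        rcases Finset.mem_insert.1 hq with h | h
        · exact Or.inl h
        · exact Or.inr (hmem q h)
      · intro n hn
        exact Finset.mem_insert_of_mem (hmem' n hn)
      · rw [Finset.card_insert_of_notMem h5']
        omega
    · exact ⟨hA.toFinset.image ps, fun q hq => Or.inr (hmem q hq), hmem', h⟩
  have hSin : ∀ q ∈ S, Inert q := by
    intro q hq
    rcases hS1 q hq with h | ⟨n, -, h⟩
    · rw [h]; exact h5
    · rw [h]; exact hin n
  obtain ⟨t, hlarge, h8, hv⟩ := hP S hSin hS3
  have ht0 := h8.val.1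
  have hle : ∀ q, Inert q → padicValRat q t ≤ 1 ∧ 0 ≤ padicValRat q t := by
    intro q hq
    rw [hv q hq]
    split_ifs <;> norm_num
  have ht3 : padicValRat 3 t = 0 := by
    rw [hv 3 ⟨Nat.prime_three, Or.inl rfl⟩, if_neg]
    intro h
    rcases hS1 3 h with h | ⟨n, -, h⟩
    · norm_num at h
    · exact hp3 n h.symm
  refine ⟨t, hlarge, ?_, ?_⟩
  · unfold Basic
    rintro (h | h | h | h)
    · exact not_three8_iff.2 h h8
    · rw [padicValRat.div ht0 (by norm_num), v33,
        padicValRat.div one_ne_zero (mul_ne_zero (by norm_num) ht0), padicValRat.one,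
        padicValRat.mul (by norm_num) ht0, v33] at h
      omega
    · obtain ⟨q, hq, -, h1, -⟩ := mach_sound h
      have := Fact.mk hq.1
      rcases h1 with h1 | h1
      · exact absurd h1 (by simpa using ht0)
      · rw [padicValRat.div one_ne_zero ht0, padicValRat.one] at h1
        have := hle q hq
        omega
    · obtain ⟨X, Y, hXY, hm⟩ := h
      obtain ⟨q, hq, -, h1, h2⟩ := mach_sound hm
      have := Fact.mk hq.1
      have hX0 : X ≠ 0 := by rintro rfl; apply ht0; rw [← hXY]; simp
      have hY0 : Y ≠ 0 := by rintro rfl; apply ht0; rw [← hXY]; simp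
      have h3 := hle q hq
      rw [← hXY, padicValRat.mul hX0 hY0] at h3
      have h4 := h1.resolve_left hX0
      have h5 := h2.resolve_left hY0
      omega
  · rintro nx x ⟨hx, hnx⟩
    refine ⟨fun hm => ?_, fun ho hn => ?_⟩
    · obtain ⟨q, hq, hq3, h1, h2⟩ := mach_sound hm
      have h1' := h1.resolve_left ht0
      have h2' := h2.resolve_left (ec_two hx).1
      have hqS : q ∈ S := by
        by_contra hc
        rw [hv q hq, if_neg hc] at h1'
        omega
      rcases hS1 q hqS with h | ⟨n, hn, h⟩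
      · rw [h] at h2'
        exact absurd (ec_five hx) (by omega)
      · rw [h] at h2'
        have h3 := (hps n x hx).1 (by omega)
        rw [hnx] at h3
        have h4 : nx = n := by omega
        rw [h4]; exact hn
    · have h1 := (hps nx x hx).2 hnx
      have h2 := out_sound (ec_two hx).1 ht0 (hin nx)
        (by rw [hv _ (hin nx), if_pos (hS2 nx hn)]) ho
      omega

theorem CE_dio {T : (ℕ → ℕ) → Prop} (hT : CE T) : ∃ W : (ℕ → ℚ) → Prop, Dio W ∧
    ∀ t (v : ℕ → ℚ) (e : ℕ → ℕ), (∀ i, v i ≠ 0 ∧ padicValRat 3 (v i) = e i) →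
      (¬ W (cns t v) → T e) ∧ (T e → ∀ P : ℚ → Prop, Thick P → ∃ t : ℚ, P t ∧
        ¬ W (cns t v)) := by
  obtain ⟨Φ, hΦ, h⟩ := hT
  obtain ⟨V, hV, h'⟩ := hΦ 1 0
  refine ⟨_, dio_basic.or hV, fun t v e he => ⟨fun hW => ?_, fun hT P hP => ?_⟩⟩
  · rw [not_or] at hW
    obtain ⟨A, hA, hL⟩ := exists_lower hW.1
    have he' : Enc (cns t v) e := fun i => he i
    have h1 := (h' (cns t v) e A he').2 hL
    rw [sub_one_zero] at h1
    rw [h]
    refine ⟨A, hA, ?_⟩
    by_contra hc
    exact hW.2 (h1 hc)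
  · obtain ⟨A, hA, h1⟩ := (h e).1 hT
    obtain ⟨t, hlarge, hb, hU⟩ := exists_upper' hA hP
    have he' : Enc (cns t v) e := fun i => he i
    have h2 := (h' (cns t v) e A he').1 hU
    rw [sub_one_zero] at h2
    refine ⟨t, hlarge, ?_⟩
    rintro (h3 | h3)
    · exact hb h3
    · exact h2 h3 h1

theorem main_int' {k : ℕ} {S : Set (Fin k → ℤ)} (hS : REPred (fun a => a ∈ S)) :
    ∃ W : (ℕ → ℚ) → Prop, Dio W ∧ ∀ (t : ℚ) (v : ℕ → ℚ) (a : Fin k → ℤ),
      (∀ i : Fin k, v i ≠ 0 ∧ padicValRat 3 (v i) = a i) →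
      (¬ W (cns t v) → a ∈ S) ∧ (a ∈ S → ∀ P : ℚ → Prop, Thick P → ∃ t : ℚ, P t ∧
        ¬ W (cns t v)) := by
  obtain ⟨W, hW, h⟩ := CE_dio (CE.of_rePred (rePred_pairs hS))
  refine ⟨fun v => ∃ w : Fin (2 * k + 1) → ℚ, (fun u : ℕ → ℚ => u (2 * k) = 1 ∧
    (∀ i < k, Can (u (2 * k + 2 + i)) (u (2 * i)) (u (2 * i + 1))) ∧
    W (fun i => u (Nat.rec (2 * k + 1) (fun j _ => if j < 2 * k then j else 2 * k) i)))
      (appq w v), ?_, ?_⟩
  · refine Dio.exN (T := fun u : ℕ → ℚ => u (2 * k) = 1 ∧
      (∀ i < k, Can (u (2 * k + 2 + i)) (u (2 * i)) (u (2 * i + 1))) ∧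
      W (fun i => u (Nat.rec (2 * k + 1) (fun j _ => if j < 2 * k then j else 2 * k) i))) ?_
    exact (Dio.eq (DioFn.var _) one_fn).and ((Dio.forall_lt (fun i => dio_can _ _ _) k).and
      (hW.ren _))
  · intro t v a hv
    -- the encoding of the positive and negative parts
    let w : ℕ → ℚ := fun j => if j < 2 * k then
      (if j % 2 = 0 then (if 0 ≤ padicValRat 3 (v (j / 2)) then v (j / 2) else 1)
        else (if 0 ≤ padicValRat 3 (v (j / 2)) then 1 else 1 / v (j / 2))) else 1
    let e : ℕ → ℕ := fun j => if h : j < 2 * k then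
      (if j % 2 = 0 then (a ⟨j / 2, by omega⟩).toNat else (-a ⟨j / 2, by omega⟩).toNat) else 0
    have hwe : ∀ j, w j ≠ 0 ∧ padicValRat 3 (w j) = e j := by
      intro j
      by_cases hj : j < 2 * k
      · obtain ⟨h0, h1⟩ := hv ⟨j / 2, by omega⟩
        simp only at h0 h1
        simp only [w, e, if_pos hj, dif_pos hj]
        split_ifs with h2 h3 h4
        · exact ⟨h0, by rw [h1] at h3 ⊢; omega⟩
        · refine ⟨one_ne_zero, ?_⟩
          rw [h1] at h3
          rw [padicValRat.one]
          omega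
        · refine ⟨one_ne_zero, ?_⟩
          rw [h1] at h4
          rw [padicValRat.one]
          omega
        · refine ⟨one_div_ne_zero h0, ?_⟩
          rw [padicValRat.div one_ne_zero h0, padicValRat.one, h1]
          rw [h1] at h4
          omega
      · simp only [w, e, if_neg hj, dif_neg hj]
        exact ⟨one_ne_zero, by simp⟩
    have hT : (fun i : Fin (2 * k) => e i) ∈ {a : Fin (2 * k) → ℕ | (fun i : Fin k =>
        ((a ⟨2 * i, by omega⟩ : ℕ) : ℤ) - ((a ⟨2 * i + 1, by omega⟩ : ℕ) : ℤ)) ∈ S} ↔ a ∈ S := by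
      have : (fun i : Fin k => ((e (2 * i) : ℕ) : ℤ) - ((e (2 * i + 1) : ℕ) : ℤ)) = a := by
        funext i
        have h1 : 2 * (i : ℕ) < 2 * k := by omega
        have h2 : 2 * (i : ℕ) + 1 < 2 * k := by omega
        have h3 : (2 * (i : ℕ)) % 2 = 0 := by omega
        have h4 : ¬ (2 * (i : ℕ) + 1) % 2 = 0 := by omega
        simp only [e, dif_pos h1, dif_pos h2, if_pos h3, if_neg h4]
        have h5 : (⟨2 * (i : ℕ) / 2, by omega⟩ : Fin k) = i := by
          apply Fin.ext; simp
        have h6 : (⟨(2 * (i : ℕ) + 1) / 2, by omega⟩ : Fin k) = i := by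
          apply Fin.ext; simp only; omega
        rw [h5, h6]
        omega
      rw [Set.mem_ofPred_eq]
      simp only
      rw [this]
    -- the existential quantifiers are determined
    have key : ∀ t : ℚ, (∃ w' : Fin (2 * k + 1) → ℚ, (fun u : ℕ → ℚ => u (2 * k) = 1 ∧
        (∀ i < k, Can (u (2 * k + 2 + i)) (u (2 * i)) (u (2 * i + 1))) ∧
        W (fun i => u (Nat.rec (2 * k + 1) (fun j _ => if j < 2 * k then j else 2 * k) i)))
          (appq w' (cns t v))) ↔ W (cns t w) := by
      intro t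
      have a1 : ∀ (w' : Fin (2 * k + 1) → ℚ) (i : ℕ), appq w' (cns t v) (2 * k + 2 + i) = v i := by
        intro w' i
        unfold appq
        rw [dif_neg (by omega)]
        have : 2 * k + 2 + i - (2 * k + 1) = i + 1 := by omega
        rw [this, cns_succ]
      have a2 : ∀ (w' : Fin (2 * k + 1) → ℚ), appq w' (cns t v) (2 * k + 1) = t := by
        intro w'
        unfold appq
        rw [dif_neg (by omega), Nat.sub_self, cns_zero]
      have a3 : ∀ (w' : Fin (2 * k + 1) → ℚ) (i : ℕ) (hi : i < 2 * k + 1),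
          appq w' (cns t v) i = w' ⟨i, hi⟩ := by
        intro w' i hi
        unfold appq
        rw [dif_pos hi]
      have a4 : ∀ w' : Fin (2 * k + 1) → ℚ, (∀ i (hi : i < 2 * k + 1), w' ⟨i, hi⟩ = w i) →
          (fun i => appq w' (cns t v)
            (Nat.rec (2 * k + 1) (fun j _ => if j < 2 * k then j else 2 * k) i)) = cns t w := by
        intro w' hw'
        funext i
        rcases i with _ | i
        · exact a2 w'
        · rw [cns_succ]
          change appq w' (cns t v) (if i < 2 * k then i else 2 * k) = w i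
          split_ifs with hi
          · rw [a3 _ _ (by omega), hw']
          · rw [a3 _ _ (by omega), hw']
            simp only [w, if_neg hi, lt_irrefl, if_false]
      have a5 : ∀ i < k, w (2 * i) = (if 0 ≤ padicValRat 3 (v i) then v i else 1) ∧
          w (2 * i + 1) = (if 0 ≤ padicValRat 3 (v i) then 1 else 1 / v i) := by
        intro i hi
        have h1 : 2 * i < 2 * k := by (clear * - hi; omega)
        have h2 : 2 * i + 1 < 2 * k := by omega
        have h3 : (2 * i) % 2 = 0 := by omega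
        have h4 : ¬ (2 * i + 1) % 2 = 0 := by omega
        have h5 : 2 * i / 2 = i := by omega
        have h6 : (2 * i + 1) / 2 = i := by omega
        simp only [w, if_pos h1, if_pos h2, if_pos h3, if_neg h4, h5, h6]
        exact ⟨trivial, trivial⟩
      constructor
      · rintro ⟨w', h1, h2, h3⟩
        rw [a4 w'] at h3
        · exact h3
        · intro i hi
          rcases Nat.lt_succ_iff_lt_or_eq.1 hi with hi' | hi'
          · have h4 := h2 (i / 2) (by omega)
            rw [a1, can_iff (hv ⟨i / 2, by omega⟩).1, a3 _ _ (by omega), a3 _ _ (by omega)] at h4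
            obtain ⟨h5, h6⟩ := a5 (i / 2) (by omega)
            rw [← h5, ← h6] at h4
            rcases Nat.mod_two_eq_zero_or_one i with h7 | h7
            · have h8 : 2 * (i / 2) = i := by omega
              simp only [h8] at h4
              exact h4.1
            · have h8 : 2 * (i / 2) + 1 = i := by omega
              simp only [h8] at h4
              exact h4.2
          · subst hi'
            rw [a3 _ _ (by omega)] at h1
            rw [h1]
            simp only [w, lt_irrefl, if_false]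
      · intro hw
        refine ⟨fun i => w i, ?_, ?_, ?_⟩
        · rw [a3 _ _ (by omega)]
          simp only [w, lt_irrefl, if_false]
        · intro i hi
          rw [a1, can_iff (hv ⟨i, hi⟩).1, a3 _ _ (by omega), a3 _ _ (by omega)]
          exact a5 i hi
        · rw [a4 _ (fun i hi => rfl)]
          exact hw
    have h' := h t w e hwe
    rw [← hT]
    refine ⟨fun hn => h'.1 (fun hw => hn ((key t).2 hw)), fun hs P hP => ?_⟩
    obtain ⟨t', hlarge, ht'⟩ := h'.2 hs P hP
    exact ⟨t', hlarge, fun hw => ht' ((key _).1 hw)⟩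

end Vale.Agent.P027.H434
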