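import Vale.Agent.P027.H434.Dense

set_option linter.all false

/-! Rational witnesses are replaced by integral witnesses. -/

namespace Vale.Agent.P027.H434

open Vale.Agent.P027 Vale.Agent.P027.K2 MvPolynomial

/-- the common denominator of the witnesses -/
def dn {m : ℕ} (y : Fin (m + 4) → ℚ) : ℚ :=
  1 + y (Fin.natAdd m 0) ^ 2 + y (Fin.natAdd m 1) ^ 2 + y (Fin.natAdd m 2) ^ 2 +
    y (Fin.natAdd m 3) ^ 2

theorem dn_pos {m : ℕ} (y : Fin (m + 4) → ℚ) : 0 < dn y := by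
  unfold dn
  positivity

theorem hom_exists {τ : Type} {m : ℕ} (F : MvPolynomial (τ ⊕ Fin m) ℤ) :
    ∃ (N : ℕ) (G : MvPolynomial (τ ⊕ Fin (m + 4)) ℤ), ∀ (x : τ → ℚ) (y : Fin (m + 4) → ℚ),
      aeval (Sum.elim x y) G = dn y ^ N *
        aeval (Sum.elim x (fun j => y (Fin.castAdd 4 j) / dn y)) F := by
  let w : MvPolynomial (τ ⊕ Fin (m + 4)) ℤ := 1 + X (Sum.inr (Fin.natAdd m 0)) ^ 2 +
    X (Sum.inr (Fin.natAdd m 1)) ^ 2 + X (Sum.inr (Fin.natAdd m 2)) ^ 2 +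
    X (Sum.inr (Fin.natAdd m 3)) ^ 2
  have hw : ∀ (x : τ → ℚ) (y : Fin (m + 4) → ℚ), aeval (Sum.elim x y) w = dn y := by
    intro x y
    simp only [w, dn, map_add, map_pow, aeval_X, map_one, Sum.elim_inr]
  induction F using MvPolynomial.induction_on with
  | C a => exact ⟨0, C a, fun x y => by simp⟩
  | add p q hp hq =>
    obtain ⟨N, P, hP⟩ := hp
    obtain ⟨M, Q, hQ⟩ := hq
    refine ⟨N + M, w ^ M * P + w ^ N * Q, fun x y => ?_⟩
    rw [map_add, map_mul, map_mul, map_pow, map_pow, hw, hP, hQ, map_add]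
    ring
  | mul_X p i hp =>
    obtain ⟨N, P, hP⟩ := hp
    rcases i with i | j
    · refine ⟨N, P * X (Sum.inl i), fun x y => ?_⟩
      rw [map_mul, map_mul, hP, aeval_X, aeval_X]
      simp only [Sum.elim_inl]
      ring
    · refine ⟨N + 1, P * X (Sum.inr (Fin.castAdd 4 j)), fun x y => ?_⟩
      rw [map_mul, map_mul, hP, aeval_X, aeval_X]
      simp only [Sum.elim_inr]
      have := (dn_pos y).ne'
      field_simp
      ring

theorem int_witness {τ : Type} {m : ℕ} (F : MvPolynomial (τ ⊕ Fin m) ℤ) :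
    ∃ G : MvPolynomial (τ ⊕ Fin (m + 4)) ℤ, ∀ x : τ → ℚ,
      ((∃ y : Fin m → ℚ, aeval (Sum.elim x y) F = 0) →
        ∃ z : Fin (m + 4) → ℤ, aeval (Sum.elim x (fun i => (z i : ℚ))) G = 0) ∧
      ((∃ y : Fin (m + 4) → ℚ, aeval (Sum.elim x y) G = 0) →
        ∃ y : Fin m → ℚ, aeval (Sum.elim x y) F = 0) := by
  obtain ⟨N, G, hG⟩ := hom_exists F
  refine ⟨G, fun x => ⟨?_, ?_⟩⟩
  · rintro ⟨y, hy⟩
    set W : ℕ := ∏ j, (y j).den with hW
    have hW0 : 0 < W := Finset.prod_pos (fun j _ => (y j).den_pos)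
    have hu : ∀ j, ∃ u : ℤ, (u : ℚ) = y j * W := by
      intro j
      obtain ⟨c, hc⟩ := Finset.dvd_prod_of_mem (fun j => (y j).den) (Finset.mem_univ j)
      refine ⟨(y j).num * c, ?_⟩
      rw [hW, hc]
      push_cast
      rw [← mul_assoc, Rat.mul_den_eq_num]
    choose u hu using hu
    obtain ⟨a, b, c, d, hs⟩ := Nat.sum_four_squares (W - 1)
    have hs' : (a : ℚ) ^ 2 + (b : ℚ) ^ 2 + (c : ℚ) ^ 2 + (d : ℚ) ^ 2 + 1 = W := by
      have : a ^ 2 + b ^ 2 + c ^ 2 + d ^ 2 + 1 = W := by omega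
      exact_mod_cast this
    refine ⟨Fin.append u ![(a : ℤ), (b : ℤ), (c : ℤ), (d : ℤ)], ?_⟩
    rw [hG]
    have hdn : dn (fun i => ((Fin.append u ![(a : ℤ), (b : ℤ), (c : ℤ), (d : ℤ)] i : ℤ) : ℚ)) =
        W := by
      unfold dn
      simp only [Fin.append_right]
      rw [← hs']
      simp
      ring
    rw [hdn]
    have e : (fun j : Fin m => (((Fin.append u ![(a : ℤ), (b : ℤ), (c : ℤ), (d : ℤ)]
        (Fin.castAdd 4 j) : ℤ) : ℚ)) / (W : ℚ)) = y := by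
      funext j
      rw [Fin.append_left, hu]
      have : (W : ℚ) ≠ 0 := by exact_mod_cast hW0.ne'
      field_simp
    rw [e, hy, mul_zero]
  · rintro ⟨y, hy⟩
    rw [hG] at hy
    exact ⟨_, (mul_eq_zero.1 hy).resolve_left (pow_ne_zero _ (dn_pos y).ne')⟩

/-- the same with one distinguished variable -/
theorem int_witness' {k m : ℕ} (F : MvPolynomial (Fin k ⊕ Fin (m + 1)) ℤ) :
    ∃ G : MvPolynomial (Fin k ⊕ Fin (m + 4 + 1)) ℤ, ∀ (α : Fin k → ℚ) (t : ℚ),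
      ((∃ y : Fin m → ℚ, aeval (Sum.elim α (Matrix.vecCons t y)) F = 0) →
        ∃ z : Fin (m + 4) → ℤ,
          aeval (Sum.elim α (Matrix.vecCons t (fun i => (z i : ℚ)))) G = 0) ∧
      ((∃ y : Fin (m + 4) → ℚ, aeval (Sum.elim α (Matrix.vecCons t y)) G = 0) →
        ∃ y : Fin m → ℚ, aeval (Sum.elim α (Matrix.vecCons t y)) F = 0) := by
  let r : Fin k ⊕ Fin (m + 1) → (Fin k ⊕ Unit) ⊕ Fin m :=
    Sum.elim (fun i => Sum.inl (Sum.inl i)) (Fin.cons (Sum.inl (Sum.inr ())) (fun j => Sum.inr j))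
  let r' : (Fin k ⊕ Unit) ⊕ Fin (m + 4) → Fin k ⊕ Fin (m + 4 + 1) :=
    Sum.elim (Sum.elim Sum.inl (fun _ => Sum.inr 0)) (fun j => Sum.inr j.succ)
  obtain ⟨G, hG⟩ := int_witness (rename r F)
  have e1 : ∀ (α : Fin k → ℚ) (t : ℚ) (y : Fin m → ℚ),
      aeval (Sum.elim (Sum.elim α (fun _ : Unit => t)) y) (rename r F) =
        aeval (Sum.elim α (Matrix.vecCons t y)) F := by
    intro α t y
    rw [aeval_rename]
    congr 2
    funext i
    rcases i with i | i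
    · rfl
    · refine Fin.cases ?_ (fun j => ?_) i <;> rfl
  have e2 : ∀ (α : Fin k → ℚ) (t : ℚ) (y : Fin (m + 4) → ℚ),
      aeval (Sum.elim α (Matrix.vecCons t y)) (rename r' G) =
        aeval (Sum.elim (Sum.elim α (fun _ : Unit => t)) y) G := by
    intro α t y
    rw [aeval_rename]
    congr 2
    funext i
    rcases i with (i | i) | i <;> rfl
  refine ⟨rename r' G, fun α t => ?_⟩
  have h := hG (Sum.elim α (fun _ : Unit => t))
  simp only [e1] at h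
  simp only [e2]
  exact h

end Vale.Agent.P027.H434
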